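import Vale.Agent.P058.Basic

namespace Vale.Agent.P058

open scoped TensorProduct

variable {K : Type} {d : ℕ}

abbrev TT := ℝ ⊗[ℚ] ℝ

abbrev MT (d : ℕ) := Matrix (Option (Fin d)) (Option (Fin d)) TT

noncomputable def eps (x : Fin d → ℝ) : MT d →ₗ[ℚ] TT where
  toFun P := ∑ α, ∑ β, (homog x α ⊗ₜ[ℚ] (1 : ℝ)) * P α β * ((1 : ℝ) ⊗ₜ[ℚ] homog x β)
  map_add' P Q := by simp only [Matrix.add_apply, mul_add, add_mul, Finset.sum_add_distrib]
  map_smul' c P := by
    simp only [Matrix.smul_apply, mul_smul_comm, smul_mul_assoc, RingHom.id_apply, Finset.smul_sum]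

noncomputable def mu : MT d →ₗ[ℚ] (Fin d → Fin d → ℝ) where
  toFun P := fun α β => LinearMap.mul' ℚ ℝ (P (some α) (some β))
  map_add' P Q := by funext α β; simp
  map_smul' c P := by funext α β; simp

def idm (d : ℕ) : Fin d → Fin d → ℝ := fun α β => if α = β then 1 else 0

def CritK (a : K → Fin d → ℝ) : Prop := ∃ P : MT d, (∀ i, eps (a i) P = 0) ∧ mu P = idm d

noncomputable def outer {ι : Type} [Fintype ι] (u v : ι → V d) : MT d :=
  fun α β => ∑ r, u r α ⊗ₜ[ℚ] v r β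

lemma eps_outer {ι : Type} [Fintype ι] (u v : ι → V d) (x : Fin d → ℝ) :
    eps x (outer u v) = ∑ r, ev x (u r) ⊗ₜ[ℚ] ev x (v r) := by
  change ∑ α, ∑ β, (homog x α ⊗ₜ[ℚ] (1 : ℝ)) * (∑ r, u r α ⊗ₜ[ℚ] v r β) *
    ((1 : ℝ) ⊗ₜ[ℚ] homog x β) = _
  simp only [ev_apply', TensorProduct.sum_tmul, TensorProduct.tmul_sum, Finset.mul_sum,
    Finset.sum_mul, Algebra.TensorProduct.tmul_mul_tmul, one_mul, mul_one]
  rw [Finset.sum_comm]
  simp_rw [Finset.sum_comm (s := (Finset.univ : Finset (Option (Fin d))))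
    (t := (Finset.univ : Finset ι))]
  refine Finset.sum_congr rfl fun r _ => Finset.sum_congr rfl fun β _ =>
    Finset.sum_congr rfl fun α _ => ?_
  rw [mul_comm]

lemma mu_outer {ι : Type} [Fintype ι] (u v : ι → V d) (α β : Fin d) :
    mu (outer u v) α β = ∑ r, u r (some α) * v r (some β) := by
  change LinearMap.mul' ℚ ℝ (∑ r, u r (some α) ⊗ₜ[ℚ] v r (some β)) = _
  simp [map_sum]

lemma exists_outer (P : MT d) : ∃ (ι : Type) (_ : Fintype ι) (u v : ι → V d), P = outer u v := by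
  classical
  choose S hS using fun p : Option (Fin d) × Option (Fin d) =>
    TensorProduct.exists_finset (P p.1 p.2)
  refine ⟨(p : Option (Fin d) × Option (Fin d)) × S p, inferInstance,
    fun r => Pi.single r.1.1 r.2.1.1, fun r => Pi.single r.1.2 r.2.1.2, ?_⟩
  funext α β
  simp only [outer]
  rw [Fintype.sum_sigma, Finset.sum_eq_single (α, β)]
  · rw [hS (α, β)]
    simp only [Pi.single_eq_same]
    exact (Finset.sum_coe_sort (S (α, β)) fun z => z.1 ⊗ₜ[ℚ] z.2).symm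
  · rintro ⟨α', β'⟩ _ h
    refine Finset.sum_eq_zero fun z _ => ?_
    by_cases h1 : α = α'
    · subst h1
      have h2 : β ≠ β' := fun h2 => h (by rw [h2])
      simp [Pi.single_eq_of_ne h2]
    · simp [Pi.single_eq_of_ne h1]
  · simp

lemma CritK.fam {a : K → Fin d → ℝ} (h : CritK a) :
    ∃ (ι : Type) (_ : Fintype ι) (u v : ι → V d),
      (∀ i, ∑ r, ev (a i) (u r) ⊗ₜ[ℚ] ev (a i) (v r) = 0) ∧
      ∀ α β, ∑ r, u r (some α) * v r (some β) = if α = β then 1 else 0 := by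
  obtain ⟨P, h1, h2⟩ := h
  obtain ⟨ι, _, u, v, rfl⟩ := exists_outer P
  exact ⟨ι, inferInstance, u, v, fun i => by rw [← eps_outer, h1], fun α β => by
    rw [← mu_outer, h2]; rfl⟩

end Vale.Agent.P058
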