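import Vale.Agent.P058.Sys
import Vale.Agent.P058.Tensor

namespace Vale.Agent.P058

open scoped TensorProduct

section gen

variable {M N A : Type} [AddCommGroup M] [AddCommGroup N] [AddCommGroup A]

noncomputable def sg (u : M) : AddMonoidAlgebra ℤ M := AddMonoidAlgebra.single u 1

lemma sg_add (u v : M) : sg (u + v) = sg u * sg v := by
  simp [sg, AddMonoidAlgebra.single_mul_single]

lemma sg_zero : sg (0 : M) = 1 := rfl

lemma sg_nsmul (u : M) (n : ℕ) : sg (n • u) = sg u ^ n := by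
  induction n with
  | zero => simp [sg_zero]
  | succ n ih => rw [succ_nsmul, sg_add, ih, pow_succ]

noncomputable def mp (f : M →+ N) : AddMonoidAlgebra ℤ M →+* AddMonoidAlgebra ℤ N :=
  AddMonoidAlgebra.mapDomainRingHom ℤ f

@[simp] lemma mp_sg (f : M →+ N) (u : M) : mp f (sg u) = sg (f u) := by
  simp [mp, sg]

noncomputable def lf (F : M → A) : AddMonoidAlgebra ℤ M →+ A :=
  ((AddMonoidAlgebra.basis M ℤ).constr ℤ F).toAddMonoidHom

@[simp] lemma lf_sg (F : M → A) (u : M) : lf F (sg u) = F u := by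
  have : sg u = AddMonoidAlgebra.basis M ℤ u := by rw [AddMonoidAlgebra.basis_apply]; rfl
  rw [this]
  exact Module.Basis.constr_basis _ ℤ F u

lemma sg_hom_ext {f g : AddMonoidAlgebra ℤ M →+ A} (h : ∀ u, f (sg u) = g (sg u)) : f = g := by
  refine AddMonoidAlgebra.addMonoidHom_ext fun u n => ?_
  have : AddMonoidAlgebra.single u n = n • sg u := by simp [sg]
  rw [this, map_zsmul, map_zsmul, h]

lemma sg_ind {P : AddMonoidAlgebra ℤ M → Prop} (h1 : ∀ u, P (sg u)) (h0 : P 0)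
    (hadd : ∀ x y, P x → P y → P (x + y)) (hneg : ∀ x, P x → P (-x)) (x) : P x := by
  let H : AddSubgroup (AddMonoidAlgebra ℤ M) :=
    { carrier := {x | P x}
      add_mem' := fun {x y} hx hy => hadd x y hx hy
      zero_mem' := h0
      neg_mem' := fun {x} hx => hneg x hx }
  induction x using AddMonoidAlgebra.induction_linear with
  | zero => exact h0
  | add x y hx hy => exact hadd x y hx hy
  | single u n =>
    have : AddMonoidAlgebra.single u n = n • sg u := by simp [sg]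
    rw [this]
    exact H.zsmul_mem (h1 u) n

lemma balanced {X Y : Type} [AddCommGroup X] [AddCommGroup Y] [Module ℚ X] [Module ℚ Y]
    (f : X →+ Y →+ A) (q : ℚ) (x : X) (y : Y) : f (q • x) y = f x (q • y) := by
  have hd : (q.den : ℚ) ≠ 0 := by exact_mod_cast q.den_nz
  have h1 : q • x = q.num • ((q.den : ℚ)⁻¹ • x) := by
    rw [← Int.cast_smul_eq_zsmul ℚ, smul_smul, ← div_eq_mul_inv, Rat.num_div_den]
  have h2 : q • y = q.num • ((q.den : ℚ)⁻¹ • y) := by
    rw [← Int.cast_smul_eq_zsmul ℚ, smul_smul, ← div_eq_mul_inv, Rat.num_div_den]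
  have h3 : x = q.den • ((q.den : ℚ)⁻¹ • x) := by
    rw [← Nat.cast_smul_eq_nsmul ℚ, smul_smul, mul_inv_cancel₀ hd, one_smul]
  have h4 : y = q.den • ((q.den : ℚ)⁻¹ • y) := by
    rw [← Nat.cast_smul_eq_nsmul ℚ, smul_smul, mul_inv_cancel₀ hd, one_smul]
  rw [h1, h2]
  generalize (q.den : ℚ)⁻¹ • x = x' at h3
  generalize (q.den : ℚ)⁻¹ • y = y' at h4
  subst h3 h4
  simp only [map_zsmul, map_nsmul, AddMonoidHom.smul_apply]
  rw [smul_comm]

end gen

abbrev RR := AddMonoidAlgebra ℤ ℝ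

abbrev SS (d : ℕ) := AddMonoidAlgebra ℤ (V d)

noncomputable def II : Ideal RR := Ideal.span (Set.range fun s : ℝ => sg s - 1)

lemma sg_sub_mem (s : ℝ) : sg s - 1 ∈ II := Ideal.subset_span ⟨s, rfl⟩

lemma mem_sq {x y : RR} (hx : x ∈ II) (hy : y ∈ II) : x * y ∈ II ^ 2 := by
  rw [sq]; exact Ideal.mul_mem_mul hx hy

lemma mem_succ {j : ℕ} {x y : RR} (hx : x ∈ II ^ j) (hy : y ∈ II) : x * y ∈ II ^ (j + 1) := by
  rw [pow_succ]; exact Ideal.mul_mem_mul hx hy

noncomputable def dl (M : Type) [AddCommGroup M] (m : ℕ) :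
    AddMonoidAlgebra ℤ M →+* AddMonoidAlgebra ℤ M := mp (nsmulAddMonoidHom m)

@[simp] lemma dl_sg {M : Type} [AddCommGroup M] (m : ℕ) (u : M) : dl M m (sg u) = sg (m • u) := by
  simp [dl]

lemma dl_sub (m : ℕ) (y : RR) : dl ℝ m y - y ∈ II := by
  induction y using sg_ind with
  | h1 s =>
    have : dl ℝ m (sg s) - sg s = (sg (m • s) - 1) - (sg s - 1) := by rw [dl_sg]; ring
    rw [this]; exact sub_mem (sg_sub_mem _) (sg_sub_mem _)
  | h0 => simp
  | hadd x y hx hy =>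
    have : dl ℝ m (x + y) - (x + y) = (dl ℝ m x - x) + (dl ℝ m y - y) := by rw [map_add]; ring
    rw [this]; exact add_mem hx hy
  | hneg x hx =>
    have : dl ℝ m (-x) - (-x) = -(dl ℝ m x - x) := by rw [map_neg]; ring
    rw [this]; exact neg_mem hx

lemma dl_gen (m : ℕ) (s : ℝ) : sg (m • s) - 1 - (m : RR) * (sg s - 1) ∈ II ^ 2 := by
  induction m with
  | zero => simp [sg_zero]
  | succ m ih =>
    have : sg ((m + 1) • s) - 1 - ((m + 1 : ℕ) : RR) * (sg s - 1) =
        (sg (m • s) - 1 - (m : RR) * (sg s - 1)) + (sg (m • s) - 1) * (sg s - 1) := by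
      rw [succ_nsmul, sg_add]; push_cast; ring
    rw [this]
    exact add_mem ih (mem_sq (sg_sub_mem _) (sg_sub_mem _))

lemma dl_one (m : ℕ) {x : RR} (hx : x ∈ II) : dl ℝ m x - (m : RR) * x ∈ II ^ 2 := by
  induction hx using Submodule.span_induction with
  | mem x hx =>
    obtain ⟨s, rfl⟩ := hx
    simpa using dl_gen m s
  | zero => simp
  | add x y _ _ hx hy =>
    have : dl ℝ m (x + y) - (m : RR) * (x + y) =
      (dl ℝ m x - (m : RR) * x) + (dl ℝ m y - (m : RR) * y) := by rw [map_add]; ring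
    rw [this]; exact add_mem hx hy
  | smul y x hx' hx =>
    have : dl ℝ m (y • x) - (m : RR) * (y • x) =
      dl ℝ m y * (dl ℝ m x - (m : RR) * x) + (m : RR) * ((dl ℝ m y - y) * x) := by
      rw [smul_eq_mul, map_mul]; ring
    rw [this]
    exact add_mem (Ideal.mul_mem_left _ _ hx) (Ideal.mul_mem_left _ _ (mem_sq (dl_sub m y) hx'))

lemma dl_pow (m j : ℕ) : ∀ x ∈ II ^ j, dl ℝ m x - (m : RR) ^ j * x ∈ II ^ (j + 1) := by
  induction j with
  | zero => intro x _; simpa using dl_sub m x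
  | succ j ih =>
    intro x hx
    rw [pow_succ] at hx
    refine Submodule.mul_induction_on hx ?_ ?_
    · intro x hx y hy
      have h1 := ih x hx
      have h2 : dl ℝ m x ∈ II ^ j := by
        have : dl ℝ m x = (dl ℝ m x - (m : RR) ^ j * x) + (m : RR) ^ j * x := by ring
        rw [this]
        exact add_mem (Ideal.pow_le_pow_right (by omega) h1) (Ideal.mul_mem_left _ _ hx)
      have : dl ℝ m (x * y) - (m : RR) ^ (j + 1) * (x * y) =
          dl ℝ m x * (dl ℝ m y - m * y) + m * ((dl ℝ m x - (m : RR) ^ j * x) * y) := by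
        rw [map_mul]; ring
      rw [this]
      refine add_mem ?_ (Ideal.mul_mem_left _ _ (mem_succ h1 hy))
      rw [show j + 1 + 1 = j + 2 by rfl, pow_add]
      exact Ideal.mul_mem_mul h2 (dl_one m hy)
    · intro x y hx hy
      have : dl ℝ m (x + y) - (m : RR) ^ (j + 1) * (x + y) =
        (dl ℝ m x - (m : RR) ^ (j + 1) * x) + (dl ℝ m y - (m : RR) ^ (j + 1) * y) := by
        rw [map_add]; ring
      rw [this]; exact add_mem hx hy

variable {K : Type} {d : ℕ}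

noncomputable def er (x : Fin d → ℝ) : SS d →+* RR := mp (ev x).toAddMonoidHom

noncomputable def cc : RR →+* SS d := mp (cst (d := d)).toAddMonoidHom

@[simp] lemma er_sg (x : Fin d → ℝ) (u : V d) : er x (sg u) = sg (ev x u) := by simp [er]

@[simp] lemma cc_sg (s : ℝ) : (cc (sg s) : SS d) = sg (cst s) := by simp [cc]

lemma er_cc (x : Fin d → ℝ) (y : RR) : er x (cc y) = y := by
  have : ((er x).comp cc).toAddMonoidHom = AddMonoidHom.id RR := sg_hom_ext fun u => by simp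
  exact DFunLike.congr_fun this y

lemma er_dl (x : Fin d → ℝ) (m : ℕ) (ν : SS d) : er x (dl _ m ν) = dl ℝ m (er x ν) := by
  have : ((er x).comp (dl _ m)).toAddMonoidHom = ((dl ℝ m).comp (er x)).toAddMonoidHom :=
    sg_hom_ext fun u => by simp [-nsmul_eq_mul]
  exact DFunLike.congr_fun this ν

noncomputable def tauS : SS d →+ ℝ := lf tau

noncomputable def ES (a : K → Fin d → ℝ) : SS d →+ (K → K → ℝ) := lf (En a)

@[simp] lemma tauS_sg (u : V d) : tauS (sg u) = tau u := lf_sg _ _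

@[simp] lemma ES_sg (a : K → Fin d → ℝ) (u : V d) : ES a (sg u) = En a u := lf_sg _ _

lemma tauS_dl (m : ℕ) (ν : SS d) : tauS (dl _ m ν) = (m : ℝ) ^ 2 * tauS ν := by
  have : tauS.comp (dl (V d) m).toAddMonoidHom = (AddMonoidHom.mulLeft ((m : ℝ) ^ 2)).comp tauS :=
    sg_hom_ext fun u => by
      simp [-nsmul_eq_mul, ← Nat.cast_smul_eq_nsmul ℝ, tau_smul]
  exact DFunLike.congr_fun this ν

lemma ES_dl (a : K → Fin d → ℝ) (m : ℕ) (ν : SS d) :
    ES a (dl _ m ν) = (m : ℝ) ^ 2 • ES a ν := by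
  have : (ES a).comp (dl (V d) m).toAddMonoidHom =
      (DistribSMul.toAddMonoidHom _ ((m : ℝ) ^ 2)).comp (ES a) :=
    sg_hom_ext fun u => by
      simp [-nsmul_eq_mul, ← Nat.cast_smul_eq_nsmul ℝ, En_smul]
  exact DFunLike.congr_fun this ν

lemma tauS_tr (h : ℝ) (ν : SS d) : tauS (sg (cst h) * ν) = tauS ν := by
  have : tauS.comp (AddMonoidHom.mulLeft (sg (cst h : V d))) = tauS :=
    sg_hom_ext fun u => by simp [← sg_add, tau_cst_add]
  exact DFunLike.congr_fun this ν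

lemma ES_tr (a : K → Fin d → ℝ) (h : ℝ) (ν : SS d) : ES a (sg (cst h) * ν) = ES a ν := by
  have : (ES a).comp (AddMonoidHom.mulLeft (sg (cst h : V d))) = ES a :=
    sg_hom_ext fun u => by simp [← sg_add, En_cst_add]
  exact DFunLike.congr_fun this ν

noncomputable def Pos (d : ℕ) : AddSubmonoid (SS d) := AddSubmonoid.closure (Set.range sg)

lemma sg_pos (u : V d) : sg u ∈ Pos d := AddSubmonoid.subset_closure ⟨u, rfl⟩

lemma pos_map (f : SS d →+ SS d) (hf : ∀ u, f (sg u) ∈ Pos d) {p : SS d} (hp : p ∈ Pos d) :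
    f p ∈ Pos d := by
  induction hp using AddSubmonoid.closure_induction with
  | mem x hx => obtain ⟨u, rfl⟩ := hx; exact hf u
  | zero => simp
  | add x y _ _ hx hy => rw [map_add]; exact add_mem hx hy

def Sm (ν : SS d) (t : ℝ) : Prop := ∃ p ∈ Pos d, ν + p ∈ Pos d ∧ tauS p ≤ t

lemma Sm.add {ν ν' : SS d} {t t' : ℝ} (h : Sm ν t) (h' : Sm ν' t') : Sm (ν + ν') (t + t') := by
  obtain ⟨p, h1, h2, h3⟩ := h
  obtain ⟨p', k1, k2, k3⟩ := h'
  refine ⟨p + p', add_mem h1 k1, ?_, by rw [map_add]; linarith⟩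
  rw [add_add_add_comm]; exact add_mem h2 k2

lemma Sm.mono {ν : SS d} {t t' : ℝ} (h : Sm ν t) (ht : t ≤ t') : Sm ν t' := by
  obtain ⟨p, h1, h2, h3⟩ := h
  exact ⟨p, h1, h2, h3.trans ht⟩

lemma Sm.congr {ν ν' : SS d} {t : ℝ} (h : Sm ν t) (hν : ν = ν') : Sm ν' t := hν ▸ h

lemma sm_zero : Sm (0 : SS d) 0 := ⟨0, zero_mem _, by simp, by simp⟩

lemma Sm.nsmul {ν : SS d} {t : ℝ} (h : Sm ν t) (n : ℕ) : Sm ((n : SS d) * ν) (n * t) := by
  induction n with
  | zero => simpa using sm_zero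
  | succ n ih =>
    refine ((ih.add h).congr ?_).mono ?_
    · push_cast; ring
    · push_cast; linarith

lemma exists_sm (ν : SS d) : ∃ t, Sm ν t := by
  have : ∃ p ∈ Pos d, ∃ q ∈ Pos d, ν = q - p := by
    induction ν using sg_ind with
    | h1 u => exact ⟨0, zero_mem _, sg u, sg_pos u, by simp⟩
    | h0 => exact ⟨0, zero_mem _, 0, zero_mem _, by simp⟩
    | hadd x y hx hy =>
      obtain ⟨p, h1, q, h2, rfl⟩ := hx
      obtain ⟨p', k1, q', k2, rfl⟩ := hy
      exact ⟨p + p', add_mem h1 k1, q + q', add_mem h2 k2, by ring⟩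
    | hneg x hx =>
      obtain ⟨p, h1, q, h2, rfl⟩ := hx
      exact ⟨q, h2, p, h1, by ring⟩
  obtain ⟨p, h1, q, h2, rfl⟩ := this
  exact ⟨tauS p, p, h1, by simpa using h2, le_rfl⟩

lemma Sm.dil {ν : SS d} {t : ℝ} (h : Sm ν t) (m : ℕ) : Sm (dl _ m ν) ((m : ℝ) ^ 2 * t) := by
  obtain ⟨p, h1, h2, h3⟩ := h
  have hf : ∀ u : V d, (dl (V d) m).toAddMonoidHom (sg u) ∈ Pos d := fun u => by
    simpa using sg_pos _
  refine ⟨dl _ m p, pos_map _ hf h1, ?_, ?_⟩
  · rw [← map_add]; exact pos_map _ hf h2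
  · rw [tauS_dl]; gcongr

lemma Sm.tr {ν : SS d} {t : ℝ} (h : Sm ν t) (s : ℝ) : Sm (sg (cst s) * ν) t := by
  obtain ⟨p, h1, h2, h3⟩ := h
  have hf : ∀ u : V d, (AddMonoidHom.mulLeft (sg (cst s : V d))) (sg u) ∈ Pos d := fun u => by
    simpa [← sg_add] using sg_pos _
  refine ⟨sg (cst s) * p, pos_map _ hf h1, ?_, ?_⟩
  · rw [← mul_add]; exact pos_map _ hf h2
  · rwa [tauS_tr]

def Good (a : K → Fin d → ℝ) (l : SS d) (L : ℝ) : Prop :=
  0 < L ∧ (∀ ν t, Sm ν t → Sm (l * ν) (L * t)) ∧ ∀ ν, ES a (l * ν) = L • ES a ν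

variable {a : K → Fin d → ℝ}

lemma Good.mul {l l' : SS d} {L L' : ℝ} (h : Good a l L) (h' : Good a l' L') :
    Good a (l * l') (L * L') :=
  ⟨mul_pos h.1 h'.1, fun ν t hν => by
    rw [mul_assoc, mul_assoc]; exact h.2.1 _ _ (h'.2.1 _ _ hν), fun ν => by
    rw [mul_assoc, h.2.2, h'.2.2, smul_smul]⟩

lemma good_one : Good a 1 1 := ⟨one_pos, fun ν t h => by simpa using h, fun ν => by simp⟩

lemma good_geom (h : ℝ) (N : ℕ) (hN : 0 < N) :
    Good a (∑ k ∈ Finset.range N, sg (cst h : V d) ^ k) N := by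
  have hk : ∀ k : ℕ, sg (cst h : V d) ^ k = sg (cst (k • h)) := fun k => by
    rw [map_nsmul, sg_nsmul]
  refine ⟨by exact_mod_cast hN, fun ν t hν => ?_, fun ν => ?_⟩
  · clear hN
    induction N with
    | zero => simpa using sm_zero
    | succ N ih =>
      rw [Finset.sum_range_succ, add_mul, hk N]
      refine (ih.add (hν.tr _)).mono ?_
      push_cast; linarith
  · rw [Finset.sum_mul, map_sum]
    simp only [hk, ES_tr, Finset.sum_const, Finset.card_range, Nat.cast_smul_eq_nsmul]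

def Av (a : K → Fin d → ℝ) (ν : SS d) (t : ℝ) : Prop :=
  ∀ η : ℝ, 0 < η → ∃ l L, Good a l L ∧ Sm (l * ν) (L * (t + η))

lemma Av.add {ν ν' : SS d} {t t' : ℝ} (h : Av a ν t) (h' : Av a ν' t') :
    Av a (ν + ν') (t + t') := by
  intro η hη
  obtain ⟨l, L, h1, h2⟩ := h (η / 2) (half_pos hη)
  obtain ⟨l', L', k1, k2⟩ := h' (η / 2) (half_pos hη)
  refine ⟨l * l', L * L', h1.mul k1, (((k1.2.1 _ _ h2).add (h1.2.1 _ _ k2)).congr ?_).mono ?_⟩
  · ring
  · apply le_of_eq; ring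

lemma Sm.av {ν : SS d} {t : ℝ} (h : Sm ν t) : Av a ν t := fun η hη =>
  ⟨1, 1, good_one, (h.congr (one_mul _).symm).mono (by linarith)⟩

lemma av_tr (h : ℝ) (x : SS d) : Av a ((sg (cst h) - 1) * x) 0 := by
  intro η hη
  obtain ⟨b, hb⟩ := exists_sm x
  obtain ⟨b', hb'⟩ := exists_sm (-x)
  obtain ⟨N, hN⟩ := exists_nat_ge ((b + b') / η)
  refine ⟨_, _, good_geom h (N + 1) (by omega), ?_⟩
  rw [← mul_assoc, geom_sum_mul, ← sg_nsmul, ← map_nsmul]
  refine (((hb.tr _).add hb').congr (by ring)).mono ?_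
  rw [div_le_iff₀ hη] at hN
  push_cast
  nlinarith

noncomputable def ZZ (a : K → Fin d → ℝ) : Ideal (SS d) where
  carrier := {η | ∀ x, ES a (η * x) = 0 ∧ Av a (η * x) 0}
  add_mem' := by
    intro η η' h h' x
    rw [add_mul, map_add, (h x).1, (h' x).1]
    exact ⟨add_zero _, by simpa using (h x).2.add (h' x).2⟩
  zero_mem' := fun x => ⟨by simp, by simpa using sm_zero.av⟩
  smul_mem' := by
    intro c η h x
    have : c • η * x = η * (c * x) := by rw [smul_eq_mul]; ring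
    rw [this]
    exact h _

lemma cc_mem {y : RR} (hy : y ∈ II) : cc y ∈ ZZ a := by
  have : II ≤ (ZZ a).comap cc := by
    rw [II, Ideal.span_le]
    rintro _ ⟨s, rfl⟩ x
    simp only [map_sub, cc_sg, map_one]
    exact ⟨by rw [sub_mul, map_sub, ES_tr, one_mul, sub_self], av_tr s x⟩
  exact this hy

lemma rowsep [DecidableEq K] (ha : Function.Injective a) (i : K) (T : Finset K) (hi : i ∉ T) :
    ∀ x ∈ II ^ T.card, ∃ ξ, er (a i) ξ = x ∧ ∀ j ∈ T, er (a j) ξ = 0 := by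
  induction T using Finset.induction_on with
  | empty => exact fun x _ => ⟨cc x, er_cc _ _, by simp⟩
  | insert j T hj ih =>
    have hij : i ≠ j := fun h => hi (h ▸ Finset.mem_insert_self _ _)
    have hiT : i ∉ T := fun h => hi (Finset.mem_insert_of_mem h)
    have h1 : ∀ y ∈ II, ∃ ζ, er (a i) ζ = y ∧ er (a j) ζ = 0 := by
      intro y hy
      induction hy using Submodule.span_induction with
      | mem x hx =>
        obtain ⟨s, rfl⟩ := hx
        obtain ⟨g, h1, h2⟩ := exists_vals (fun h => hij (ha h)) s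
        exact ⟨sg g - 1, by simp [h1], by simp [h2, sg_zero]⟩
      | zero => exact ⟨0, by simp, by simp⟩
      | add x y _ _ hx hy =>
        obtain ⟨ζ, h1, h2⟩ := hx
        obtain ⟨ζ', k1, k2⟩ := hy
        exact ⟨ζ + ζ', by simp [h1, k1], by simp [h2, k2]⟩
      | smul r x _ hx =>
        obtain ⟨ζ, h1, h2⟩ := hx
        exact ⟨cc r * ζ, by simp [h1, er_cc], by simp [h2]⟩
    intro x hx
    rw [Finset.card_insert_of_notMem hj, pow_succ] at hx
    refine Submodule.mul_induction_on hx ?_ ?_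
    · intro x hx y hy
      obtain ⟨ξ, k1, k2⟩ := ih hiT x hx
      obtain ⟨ζ, l1, l2⟩ := h1 y hy
      refine ⟨ξ * ζ, by simp [k1, l1], fun l hl => ?_⟩
      rcases Finset.mem_insert.1 hl with rfl | hl
      · simp [l2]
      · simp [k2 l hl]
    · rintro x y ⟨ξ, k1, k2⟩ ⟨ξ', l1, l2⟩
      exact ⟨ξ + ξ', by simp [k1, l1], fun l hl => by simp [k2 l hl, l2 l hl]⟩

lemma rowcorr [Fintype K] [DecidableEq K] (ha : Function.Injective a) (i : K) (x : RR)
    (hx : x ∈ II ^ Fintype.card K) :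
    ∃ η ∈ ZZ a, er (a i) η = x ∧ ∀ j, j ≠ i → er (a j) η = 0 := by
  have hc : Fintype.card K = (Finset.univ.erase i).card + 1 := by
    rw [Finset.card_erase_add_one (Finset.mem_univ i), Finset.card_univ]
  rw [hc, pow_succ] at hx
  refine Submodule.mul_induction_on hx ?_ ?_
  · intro x hx y hy
    obtain ⟨ξ, k1, k2⟩ := rowsep ha i _ (by simp) x hx
    exact ⟨ξ * cc y, Ideal.mul_mem_left _ _ (cc_mem hy), by simp [k1, er_cc],
      fun j hj => by simp [k2 j (by simpa using hj)]⟩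
  · rintro x y ⟨ξ, k0, k1, k2⟩ ⟨ξ', l0, l1, l2⟩
    exact ⟨ξ + ξ', add_mem k0 l0, by simp [k1, l1], fun l hl => by simp [k2 l hl, l2 l hl]⟩

def AP (a : K → Fin d → ℝ) (j : ℕ) : Prop :=
  ∀ ε : ℝ, 0 < ε → ∃ (ν : SS d) (c : ℝ), 0 < c ∧ (∀ i, er (a i) ν ∈ II ^ j) ∧
    ES a ν = c • Dm a ∧ Sm ν (ε * c)

lemma AP.succ {j : ℕ} (h : AP a (j + 3)) : AP a (j + 3 + 1) := by
  intro ε hε
  obtain ⟨ν, c, hc, h1, h2, h3⟩ := h (ε / 4) (by linarith)
  obtain ⟨b, hb⟩ := exists_sm (-ν)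
  obtain ⟨m0, hm0⟩ := exists_nat_ge (2 * b / (ε * c))
  set m := m0 + 2 with hm
  have hm2 : (2 : ℝ) ≤ m := by rw [hm]; push_cast; linarith [(Nat.cast_nonneg m0 : (0 : ℝ) ≤ m0)]
  have hM : (m : ℝ) ^ 2 * m ≤ ((m ^ (j + 3) : ℕ) : ℝ) := by
    push_cast
    have : (1 : ℝ) ≤ (m : ℝ) ^ j := one_le_pow₀ (by linarith)
    calc (m : ℝ) ^ 2 * m = 1 * (m ^ 2 * m) := by ring
      _ ≤ (m : ℝ) ^ j * (m ^ 2 * m) := by gcongr
      _ = _ := by ring
  have hq : (0 : ℝ) < (m : ℝ) ^ 2 := by positivity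
  refine ⟨((m ^ (j + 3) : ℕ) : SS d) * ν + dl _ m (-ν), (((m ^ (j + 3) : ℕ) : ℝ) - m ^ 2) * c,
    mul_pos (by nlinarith) hc, fun i => ?_, ?_, ?_⟩
  · have := neg_mem (dl_pow m (j + 3) _ (h1 i))
    convert this using 1
    rw [map_add, map_mul, map_natCast, er_dl, map_neg, map_neg]
    push_cast
    ring
  · rw [map_add, ES_dl, ← nsmul_eq_mul, map_nsmul, map_neg, h2, ← Nat.cast_smul_eq_nsmul ℝ]
    funext x y
    simp only [Pi.add_apply, Pi.smul_apply, smul_eq_mul, Pi.neg_apply]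
    ring
  · refine ((h3.nsmul _).add (hb.dil m)).mono ?_
    generalize ((m ^ (j + 3) : ℕ) : ℝ) = M at hM
    have hεc : 0 < ε * c := mul_pos hε hc
    rw [div_le_iff₀ hεc] at hm0
    have e2 : 2 * b ≤ (m - 1) * (ε * c) := by
      have : (m0 : ℝ) ≤ m - 1 := by rw [hm]; push_cast; linarith
      nlinarith
    have e3 : (m : ℝ) ^ 2 * (2 * b) ≤ m ^ 2 * ((m - 1) * (ε * c)) := by gcongr
    have e4 : (m : ℝ) ^ 2 * (m - 1) * (ε * c) ≤ (M - m ^ 2) * (ε * c) := by gcongr; linarith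
    have e5 : (M : ℝ) / 2 * (ε * c) ≤ (M - m ^ 2) * (ε * c) := by gcongr; nlinarith
    nlinarith

lemma AP.all (h : AP a 3) (n : ℕ) : AP a n := by
  have : AP a (n + 3) := by
    induction n with
    | zero => exact h
    | succ n ih => rw [show n + 1 + 3 = n + 3 + 1 by omega]; exact ih.succ
  intro ε hε
  obtain ⟨ν, c, hc, h1, h2, h3⟩ := this ε hε
  exact ⟨ν, c, hc, fun i => Ideal.pow_le_pow_right (by omega) (h1 i), h2, h3⟩

noncomputable def ab : RR →+ Additive (Abelianization (FreeGroup ℝ)) :=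
  lf fun s => Additive.ofMul (Abelianization.of (FreeGroup.of s))

lemma pos_list (a : K → Fin d → ℝ) {p : SS d} (hp : p ∈ Pos d) : ∃ W : List (V d),
    EL a W = ES a p ∧ tauL W = tauS p ∧
      ∀ i, ab (er (a i) p) = Additive.ofMul (Abelianization.of (rowF (a i) W)) := by
  induction hp using AddSubmonoid.closure_induction with
  | mem x hx =>
    obtain ⟨u, rfl⟩ := hx
    exact ⟨[u], by simp, by simp, fun i => by simp [ab]⟩
  | zero => exact ⟨[], by simp, by simp, fun i => by simp⟩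
  | add x y _ _ hx hy =>
    obtain ⟨W, h1, h2, h3⟩ := hx
    obtain ⟨W', k1, k2, k3⟩ := hy
    exact ⟨W ++ W', by simp [h1, k1], by simp [h2, k2], fun i => by simp [h3, k3]⟩

lemma AP.pair [Fintype K] [DecidableEq K] (ha : Function.Injective a)
    (h : AP a (Fintype.card K)) : PairP a 1 := by
  intro ε hε
  obtain ⟨ν, c, hc, h1, h2, h3⟩ := h (ε / 2) (half_pos hε)
  choose η k1 k2 k3 using fun i => rowcorr ha i _ (h1 i)
  have hZ := (ZZ a).sum_mem (t := Finset.univ) (fun i _ => k1 i) (-1)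
  have hrow : ∀ i, er (a i) (ν + (∑ j, η j) * -1) = 0 := by
    intro i
    rw [map_add, map_mul, map_sum, Finset.sum_eq_single i (fun j _ hj => k3 j i hj.symm)
      (by simp), k2]
    simp
  obtain ⟨l, L, l1, p, l2, l3, l4⟩ := (h3.av.add hZ.2) (ε / 2 * c) (by positivity)
  obtain ⟨W, w1, w2, w3⟩ := pos_list a l2
  obtain ⟨U, u1, u2, u3⟩ := pos_list a l3
  refine ⟨U, W, L * c, mul_pos l1.1 hc, fun i => ?_, ?_, ?_⟩
  · have := u3 i
    rw [map_add, map_mul, hrow, mul_zero, zero_add, w3] at this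
    have h4 := Additive.ofMul.injective this
    rw [lcs, Subgroup.top_lowerCentralSeries_one, ← Abelianization.ker_of, MonoidHom.mem_ker,
      map_mul, map_inv, h4, inv_mul_cancel]
  · rw [u1, w1, map_add, l1.2.2, map_add, hZ.1, h2, add_zero, smul_smul, add_comm]
  · rw [w2]
    refine l4.trans (le_of_eq ?_)
    ring

end Vale.Agent.P058
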