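import Vale.Agent.P058.Defs

namespace Vale.Agent.P058

abbrev V (d : ℕ) := Option (Fin d) → ℝ

variable {K : Type} {d : ℕ}

/-- evaluation of an affine functional -/
noncomputable def ev (x : Fin d → ℝ) : V d →ₗ[ℝ] ℝ where
  toFun f := ∑ α, f α * homog x α
  map_add' f g := by simp only [Pi.add_apply, add_mul, Finset.sum_add_distrib]
  map_smul' c f := by
    simp only [Pi.smul_apply, smul_eq_mul, RingHom.id_apply, Finset.mul_sum, mul_assoc]

lemma ev_apply (x : Fin d → ℝ) (f : V d) : ev x f = f none + ∑ α, f (some α) * x α := by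
  simp [ev, homog, Fintype.sum_option]

lemma ev_apply' (x : Fin d → ℝ) (f : V d) : ev x f = ∑ α, f α * homog x α := rfl

/-- constant functional -/
noncomputable def cst : ℝ →ₗ[ℝ] V d where
  toFun s := Pi.single none s
  map_add' s t := by simp [Pi.single_add]
  map_smul' c s := by
    funext α
    cases α <;> simp

@[simp] lemma cst_some (s : ℝ) (α : Fin d) : (cst s : V d) (some α) = 0 := by simp [cst]
@[simp] lemma cst_none (s : ℝ) : (cst s : V d) none = s := by simp [cst]

@[simp] lemma ev_cst (x : Fin d → ℝ) (s : ℝ) : ev x (cst s) = s := by simp [ev_apply]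

noncomputable def En (a : K → Fin d → ℝ) (f : V d) : K → K → ℝ :=
  fun i l => (ev (a i) f - ev (a l) f) ^ 2

noncomputable def Dm (a : K → Fin d → ℝ) : K → K → ℝ := fun i l => ∑ α, (a i α - a l α) ^ 2

noncomputable def tau (f : V d) : ℝ := ∑ α, f (some α) ^ 2

lemma tau_nonneg (f : V d) : 0 ≤ tau f := Finset.sum_nonneg fun _ _ => sq_nonneg _

lemma tau_smul (c : ℝ) (f : V d) : tau (c • f) = c ^ 2 * tau f := by
  simp [tau, Finset.mul_sum, mul_pow]

lemma tau_neg (f : V d) : tau (-f) = tau f := by simp [tau]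

lemma tau_cst_add (s : ℝ) (f : V d) : tau (cst s + f) = tau f := by simp [tau]

lemma tau_zero : tau (0 : V d) = 0 := by simp [tau]

lemma En_smul (a : K → Fin d → ℝ) (c : ℝ) (f : V d) : En a (c • f) = c ^ 2 • En a f := by
  funext i l
  simp only [En, map_smul, smul_eq_mul, Pi.smul_apply]
  ring

lemma En_neg (a : K → Fin d → ℝ) (f : V d) : En a (-f) = En a f := by
  funext i l
  simp only [En, map_neg]
  ring

lemma En_cst_add (a : K → Fin d → ℝ) (s : ℝ) (f : V d) : En a (cst s + f) = En a f := by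
  funext i l
  simp only [En, map_add, ev_cst]
  ring

lemma En_zero (a : K → Fin d → ℝ) : En a 0 = 0 := by
  funext i l
  simp [En]

lemma En_cst (a : K → Fin d → ℝ) (s : ℝ) : En a (cst s) = 0 := by
  have := En_cst_add a s 0
  rwa [add_zero, En_zero] at this

lemma ev_sub (x y : Fin d → ℝ) (f : V d) :
    ev x f - ev y f = ∑ α, f (some α) * (x α - y α) := by
  simp only [ev_apply, mul_sub, Finset.sum_sub_distrib]
  ring

noncomputable def EL (a : K → Fin d → ℝ) (W : List (V d)) : K → K → ℝ := (W.map (En a)).sum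

noncomputable def tauL (W : List (V d)) : ℝ := (W.map tau).sum

@[simp] lemma EL_nil (a : K → Fin d → ℝ) : EL a [] = 0 := rfl
@[simp] lemma EL_cons (a : K → Fin d → ℝ) (f : V d) (W : List (V d)) :
    EL a (f :: W) = En a f + EL a W := by simp [EL]
@[simp] lemma EL_append (a : K → Fin d → ℝ) (W W' : List (V d)) :
    EL a (W ++ W') = EL a W + EL a W' := by simp [EL]
@[simp] lemma tauL_nil : tauL ([] : List (V d)) = 0 := rfl
@[simp] lemma tauL_cons (f : V d) (W : List (V d)) : tauL (f :: W) = tau f + tauL W := by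
  simp [tauL]
@[simp] lemma tauL_append (W W' : List (V d)) : tauL (W ++ W') = tauL W + tauL W' := by
  simp [tauL]

lemma tauL_nonneg (W : List (V d)) : 0 ≤ tauL W := by
  induction W with
  | nil => simp
  | cons f W ih => simp only [tauL_cons]; have := tau_nonneg f; linarith

noncomputable def Cone (a : K → Fin d → ℝ) : AddSubmonoid (K → K → ℝ) :=
  AddSubmonoid.closure (Set.range (En a))

lemma En_mem (a : K → Fin d → ℝ) (f : V d) : En a f ∈ Cone a :=
  AddSubmonoid.subset_closure ⟨f, rfl⟩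

lemma smul_Dm_mem (a : K → Fin d → ℝ) {t : ℝ} (ht : 0 ≤ t) : t • Dm a ∈ Cone a := by
  have : t • Dm a = ∑ α : Fin d, En a (Pi.single (some α) (√t)) := by
    funext i l
    simp only [Pi.smul_apply, Dm, smul_eq_mul, Finset.sum_apply, En, ev_sub, Finset.mul_sum]
    refine Finset.sum_congr rfl fun α _ => ?_
    rw [Finset.sum_eq_single α]
    · simp [mul_pow, Real.sq_sqrt ht]
    · intro β _ hβ
      rw [Pi.single_eq_of_ne (by simpa using hβ)]; simp
    · simp
  rw [this]
  exact AddSubmonoid.sum_mem _ fun α _ => En_mem a _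

lemma lagrange_aux (m x : Fin d → ℝ) :
    (∑ α, m α ^ 2) * (∑ α, x α ^ 2) - (∑ α, m α * x α) ^ 2 =
      ∑ α, ∑ β, (m α * x β - m β * x α) ^ 2 / 2 := by
  have h1 : (∑ α, m α ^ 2) * (∑ α, x α ^ 2) = ∑ α, ∑ β, m α ^ 2 * x β ^ 2 := by
    rw [Finset.sum_mul_sum]
  have h2 : (∑ α, m α ^ 2) * (∑ α, x α ^ 2) = ∑ α, ∑ β, m β ^ 2 * x α ^ 2 := by
    rw [h1, Finset.sum_comm]
  have h3 : (∑ α, m α * x α) ^ 2 = ∑ α, ∑ β, (m α * x α) * (m β * x β) := by
    rw [sq, Finset.sum_mul_sum]
  have h4 : ∑ α, ∑ β, (m α * x β - m β * x α) ^ 2 / 2 =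
      (∑ α, ∑ β, m α ^ 2 * x β ^ 2) / 2 + (∑ α, ∑ β, m β ^ 2 * x α ^ 2) / 2 -
        ∑ α, ∑ β, (m α * x α) * (m β * x β) := by
    simp only [Finset.sum_div, ← Finset.sum_add_distrib, ← Finset.sum_sub_distrib]
    refine Finset.sum_congr rfl fun α _ => Finset.sum_congr rfl fun β _ => ?_
    ring
  rw [h4, ← h1, ← h2, h3]
  ring

lemma lagrange (a : K → Fin d → ℝ) (f : V d) : tau f • Dm a - En a f ∈ Cone a := by
  have : tau f • Dm a - En a f = ∑ α : Fin d, ∑ β : Fin d,
      En a ((√2)⁻¹ • (Pi.single (some β) (f (some α)) - Pi.single (some α) (f (some β)))) := by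
    funext i l
    simp only [Pi.sub_apply, Pi.smul_apply, smul_eq_mul, Finset.sum_apply, En_smul]
    simp only [tau, Dm, En, ev_sub]
    rw [lagrange_aux]
    refine Finset.sum_congr rfl fun α _ => Finset.sum_congr rfl fun β _ => ?_
    have hs : ∀ (γ : Fin d) (c : ℝ), ∑ δ : Fin d,
        (Pi.single (some γ) c : V d) (some δ) * (a i δ - a l δ) = c * (a i γ - a l γ) := by
      intro γ c
      rw [Finset.sum_eq_single γ]
      · simp
      · intro δ _ hδ
        rw [Pi.single_eq_of_ne (by simpa using hδ)]; simp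
      · simp
    simp only [Pi.sub_apply, sub_mul, Finset.sum_sub_distrib, hs]
    rw [inv_pow, Real.sq_sqrt (by norm_num)]
    ring
  rw [this]
  exact AddSubmonoid.sum_mem _ fun α _ => AddSubmonoid.sum_mem _ fun β _ => En_mem a _

lemma lagrangeL (a : K → Fin d → ℝ) (W : List (V d)) : tauL W • Dm a - EL a W ∈ Cone a := by
  induction W with
  | nil => simp
  | cons f W ih =>
    have : tauL (f :: W) • Dm a - EL a (f :: W) =
        (tau f • Dm a - En a f) + (tauL W • Dm a - EL a W) := by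
      simp only [tauL_cons, EL_cons, add_smul]; abel
    rw [this]
    exact add_mem (lagrange a f) ih

lemma coneL (a : K → Fin d → ℝ) (W : List (V d)) {t : ℝ} (h : tauL W ≤ t) :
    t • Dm a - EL a W ∈ Cone a := by
  have : t • Dm a - EL a W = (t - tauL W) • Dm a + (tauL W • Dm a - EL a W) := by
    simp only [sub_smul]; abel
  rw [this]
  exact add_mem (smul_Dm_mem a (by linarith)) (lagrangeL a W)

lemma exists_sep {x y : Fin d → ℝ} (h : x ≠ y) : ∃ g : V d, ev x g = 1 ∧ ev y g = 0 := by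
  obtain ⟨α, hα⟩ := Function.ne_iff.1 h
  have hα' : x α - y α ≠ 0 := sub_ne_zero.2 hα
  have hs : ∀ (z : Fin d → ℝ) (c : ℝ), ev z (Pi.single (some α) c) = c * z α := by
    intro z c
    rw [ev_apply, Finset.sum_eq_single α]
    · simp
    · intro δ _ hδ
      rw [Pi.single_eq_of_ne (by simpa using hδ)]; simp
    · simp
  refine ⟨cst (-(y α) / (x α - y α)) + Pi.single (some α) (1 / (x α - y α)), ?_, ?_⟩
  · simp only [map_add, ev_cst, hs]; field_simp; ring
  · simp only [map_add, ev_cst, hs]; field_simp; ring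

lemma exists_vals {x y : Fin d → ℝ} (h : x ≠ y) (s : ℝ) : ∃ g : V d, ev x g = s ∧ ev y g = 0 := by
  obtain ⟨g, h1, h2⟩ := exists_sep h
  exact ⟨s • g, by simp [h1], by simp [h2]⟩

end Vale.Agent.P058
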