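import Mathlib

namespace Vale.Agent.P058

open scoped TensorProduct

/-- `A` is Ramsey: for every number of colours `r ≥ 2` there is a dimension `D ≥ 1` such that every
`r`-colouring of `ℝ^D` is constant on the image of `A` under some distance-preserving map. -/
def IsRamsey {d : ℕ} (A : Finset (EuclideanSpace ℝ (Fin d))) : Prop :=
  ∀ r : ℕ, 2 ≤ r → ∃ D : ℕ, 1 ≤ D ∧ ∀ c : EuclideanSpace ℝ (Fin D) → Fin r,
    ∃ φ : A → EuclideanSpace ℝ (Fin D),
      (∀ x y : A, dist (φ x) (φ y) = dist (x : EuclideanSpace ℝ (Fin d)) y) ∧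
        ∃ k : Fin r, ∀ x : A, c (φ x) = k

/-- `X` is transitive: the isometries of the ambient space mapping `X` onto itself act
transitively on `X`. -/
def IsTransitive {n : ℕ} (X : Finset (EuclideanSpace ℝ (Fin n))) : Prop :=
  ∀ x ∈ X, ∀ y ∈ X, ∃ f : EuclideanSpace ℝ (Fin n) ≃ᵢ EuclideanSpace ℝ (Fin n),
    f '' (X : Set (EuclideanSpace ℝ (Fin n))) = X ∧ f x = y

/-- `A` is subtransitive: congruent to a subset of a finite transitive set. -/
def IsSubtransitive {d : ℕ} (A : Finset (EuclideanSpace ℝ (Fin d))) : Prop :=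
  ∃ (n : ℕ) (X : Finset (EuclideanSpace ℝ (Fin n))), IsTransitive X ∧
    ∃ φ : A → EuclideanSpace ℝ (Fin n), (∀ x : A, φ x ∈ X) ∧
      ∀ x y : A, dist (φ x) (φ y) = dist (x : EuclideanSpace ℝ (Fin d)) y

/-- Homogeneous coordinates `(1, x_1, …, x_d)` of a point. -/
def homog {d : ℕ} (x : Fin d → ℝ) : Option (Fin d) → ℝ
  | none => 1
  | some α => x α

/-- The tensor criterion: a `(d+1) × (d+1)` matrix `P` over `ℝ ⊗[ℚ] ℝ` with
`(p ⊗ 1)ᵀ P (1 ⊗ p) = 0` for the homogeneous coordinates `p` of every point of `A`, whose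
`d × d` block multiplies out to the identity matrix. -/
def TensorCriterion {d : ℕ} (A : Finset (EuclideanSpace ℝ (Fin d))) : Prop :=
  ∃ P : Matrix (Option (Fin d)) (Option (Fin d)) (ℝ ⊗[ℚ] ℝ),
    (∀ x ∈ A, ∑ α, ∑ β,
      (homog x.ofLp α ⊗ₜ[ℚ] (1 : ℝ)) * P α β * ((1 : ℝ) ⊗ₜ[ℚ] homog x.ofLp β) = 0) ∧
    ∀ α β : Fin d, LinearMap.mul' ℚ ℝ (P (some α) (some β)) = if α = β then 1 else 0

/-- The cyclic kite with vertices `(-1, 0)`, `(1, 0)`, `(a, √(1 - a²))`, `(a, -√(1 - a²))`. -/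
noncomputable def kite (a : ℝ) : Finset (EuclideanSpace ℝ (Fin 2)) :=
  {!₂[-1, 0], !₂[1, 0], !₂[a, √(1 - a ^ 2)], !₂[a, -√(1 - a ^ 2)]}

end Vale.Agent.P058
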