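import Vale.Agent.P058.Nec

namespace Vale.Agent.P058

open scoped TensorProduct

noncomputable def ratEmb {t : ℝ} (ht : Transcendental ℚ t) : RatFunc ℚ →+* ℝ :=
  RatFunc.liftRingHom (Polynomial.aeval t : Polynomial ℚ →ₐ[ℚ] ℝ).toRingHom
    (nonZeroDivisors_le_comap_nonZeroDivisors_of_injective _ (transcendental_iff_injective.1 ht))

lemma ratEmb_X {t : ℝ} (ht : Transcendental ℚ t) : ratEmb ht RatFunc.X = t := by
  rw [ratEmb, RatFunc.liftRingHom_X]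
  simp

lemma transfer {a a' : ℝ} (ha : Transcendental ℚ a) (ha' : Transcendental ℚ a') {y0 : ℝ}
    (hy : y0 ≠ 0) : ∃ θ : ℝ →+ ℝ, θ y0 ≠ 0 ∧ ∀ y, θ (a * y) = a' * θ y := by
  letI : Algebra (RatFunc ℚ) ℝ := (ratEmb ha).toAlgebra
  obtain ⟨f, hf⟩ := Module.Projective.exists_dual_ne_zero (RatFunc ℚ) hy
  refine ⟨(ratEmb ha').toAddMonoidHom.comp f.toAddMonoidHom, ?_, fun y => ?_⟩
  · simpa using hf
  · have : a * y = (RatFunc.X : RatFunc ℚ) • y := by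
      rw [Algebra.smul_def]
      change _ = ratEmb ha RatFunc.X * y
      rw [ratEmb_X]
    rw [this]
    simp [ratEmb_X]

lemma transc_add_two {a : ℝ} (ha : Transcendental ℚ a) : Transcendental ℚ (a + 2) := by
  intro h
  apply ha
  have := h.sub (isAlgebraic_algebraMap (R := ℚ) (A := ℝ) 2)
  simpa using this

lemma kite_rel {n : ℕ} {a : ℝ} (p1 p2 p3 p4 : Fin n → ℝ)
    (h12 : ∑ k, (p1 k - p2 k) ^ 2 = 4) (h13 : ∑ k, (p1 k - p3 k) ^ 2 = 2 + 2 * a)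
    (h14 : ∑ k, (p1 k - p4 k) ^ 2 = 2 + 2 * a) (h23 : ∑ k, (p2 k - p3 k) ^ 2 = 2 - 2 * a)
    (h24 : ∑ k, (p2 k - p4 k) ^ 2 = 2 - 2 * a) (h34 : ∑ k, (p3 k - p4 k) ^ 2 = 4 - 4 * a ^ 2)
    (k : Fin n) : p3 k + p4 k = (1 - a) * p1 k + (1 + a) * p2 k := by
  have h : ∑ k, (p3 k + p4 k - ((1 - a) * p1 k + (1 + a) * p2 k)) ^ 2 = 0 := by
    have : ∀ k, (p3 k + p4 k - ((1 - a) * p1 k + (1 + a) * p2 k)) ^ 2 =
        -((1 - a) * (1 + a)) * (p1 k - p2 k) ^ 2 + (1 - a) * (p1 k - p3 k) ^ 2 +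
        (1 - a) * (p1 k - p4 k) ^ 2 + (1 + a) * (p2 k - p3 k) ^ 2 +
        (1 + a) * (p2 k - p4 k) ^ 2 - (p3 k - p4 k) ^ 2 := fun k => by ring
    simp only [this, Finset.sum_add_distrib, Finset.sum_sub_distrib, ← Finset.mul_sum,
      h12, h13, h14, h23, h24, h34]
    ring
  rw [Finset.sum_eq_zero_iff_of_nonneg fun _ _ => sq_nonneg _] at h
  have := h k (Finset.mem_univ k)
  rwa [sq_eq_zero_iff, sub_eq_zero] at this

theorem kite_not_sub {a : ℝ} (ha : Transcendental ℚ a) (h1 : -1 < a) (h2 : a < 1) :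
    ¬ IsSubtransitive (kite a) := by
  classical
  rintro ⟨n, X, hX, φ, hm, hd⟩
  have hb : √(1 - a ^ 2) ^ 2 = 1 - a ^ 2 := Real.sq_sqrt (by nlinarith)
  let k1 : kite a := ⟨!₂[-1, 0], by simp [kite]⟩
  let k2 : kite a := ⟨!₂[1, 0], by simp [kite]⟩
  let k3 : kite a := ⟨!₂[a, √(1 - a ^ 2)], by simp [kite]⟩
  let k4 : kite a := ⟨!₂[a, -√(1 - a ^ 2)], by simp [kite]⟩
  let x : kite a → X := fun i => ⟨φ i, hm i⟩
  have hD : ∀ (σ : dperm X) (i l : kite a),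
      ∑ k, ((σ.1 (x i) : Eu n).ofLp k - (σ.1 (x l) : Eu n).ofLp k) ^ 2 =
        ∑ k, ((i : Eu 2).ofLp k - (l : Eu 2).ofLp k) ^ 2 := fun σ i l =>
    (dist_eq_iff _ _ _ _).1 ((σ.2 _ _).trans (hd i l))
  have hrel : ∀ (σ : dperm X) k, (σ.1 (x k3) : Eu n).ofLp k + (σ.1 (x k4) : Eu n).ofLp k =
      (1 - a) * (σ.1 (x k1) : Eu n).ofLp k + (1 + a) * (σ.1 (x k2) : Eu n).ofLp k := by
    intro σ
    apply kite_rel <;> rw [hD] <;> simp [k1, k2, k3, k4, Fin.sum_univ_two] <;> nlinarith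
  obtain ⟨k, hk⟩ : ∃ k, (φ k1).ofLp k - (φ k2).ofLp k ≠ 0 := by
    by_contra hcon
    push Not at hcon
    have := (dist_eq_iff _ _ _ _).1 (hd k1 k2)
    simp only [hcon] at this
    simp [k1, k2, Fin.sum_univ_two] at this
    norm_num at this
  obtain ⟨θ, t1, t2⟩ := transfer ha (transc_add_two ha) hk
  let g : X → ℝ := fun z => θ ((z : Eu n).ofLp k)
  have hg : ∀ σ : dperm X, g (σ.1 (x k3)) + g (σ.1 (x k4)) =
      (1 - (a + 2)) * g (σ.1 (x k1)) + (1 + (a + 2)) * g (σ.1 (x k2)) := by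
    intro σ
    simp only [g]
    rw [← map_add, hrel, sub_mul, add_mul, map_add, map_sub, map_add, t2, t2, one_mul, one_mul]
    ring
  have n2 := sum_dperm hX (fun z => g z ^ 2) (x k2) (x k1)
  have n3 := sum_dperm hX (fun z => g z ^ 2) (x k3) (x k1)
  have n4 := sum_dperm hX (fun z => g z ^ 2) (x k4) (x k1)
  have hS : 0 < ∑ σ : dperm X, (g (σ.1 (x k1)) - g (σ.1 (x k2))) ^ 2 := by
    refine Finset.sum_pos' (fun _ _ => sq_nonneg _) ⟨1, Finset.mem_univ _, ?_⟩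
    have : g ((1 : dperm X).1 (x k1)) - g ((1 : dperm X).1 (x k2)) ≠ 0 := by
      rw [map_sub] at t1
      exact t1
    positivity
  have hle : ∑ σ : dperm X, (2 * (1 - (a + 2)) * g (σ.1 (x k1)) ^ 2 +
      2 * (1 + (a + 2)) * g (σ.1 (x k2)) ^ 2 +
      ((a + 2) ^ 2 - 1) * (g (σ.1 (x k1)) - g (σ.1 (x k2))) ^ 2) ≤
      ∑ σ : dperm X, (2 * g (σ.1 (x k3)) ^ 2 + 2 * g (σ.1 (x k4)) ^ 2) := by
    refine Finset.sum_le_sum fun σ _ => ?_
    have e : (g (σ.1 (x k3)) + g (σ.1 (x k4))) ^ 2 = 2 * (1 - (a + 2)) * g (σ.1 (x k1)) ^ 2 +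
      2 * (1 + (a + 2)) * g (σ.1 (x k2)) ^ 2 +
      ((a + 2) ^ 2 - 1) * (g (σ.1 (x k1)) - g (σ.1 (x k2))) ^ 2 := by rw [hg]; ring
    rw [← e]
    nlinarith [sq_nonneg (g (σ.1 (x k3)) - g (σ.1 (x k4)))]
  simp only [Finset.sum_add_distrib, ← Finset.mul_sum] at hle
  rw [n2, n3, n4] at hle
  have : 0 < ((a + 2) ^ 2 - 1) * ∑ σ : dperm X, (g (σ.1 (x k1)) - g (σ.1 (x k2))) ^ 2 :=
    mul_pos (by nlinarith) hS
  linarith

theorem kite_crit {a : ℝ} (h1 : -1 < a) (h2 : a < 1) : CritK (pts (kite a)) := by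
  classical
  have hb : √(1 - a ^ 2) ^ 2 = 1 - a ^ 2 := Real.sq_sqrt (by nlinarith)
  have hb0 : √(1 - a ^ 2) ≠ 0 := (Real.sqrt_pos.2 (by nlinarith)).ne'
  set b := √(1 - a ^ 2) with hbdef
  let u : Fin 2 → V 2 := ![cst (-1) + Pi.single (some 0) 1, Pi.single (some 1) ((1 - a) / b)]
  let v : Fin 2 → V 2 := ![cst 1 + Pi.single (some 0) 1, Pi.single (some 1) ((1 + a) / b)]
  refine ⟨outer u v, ?_, ?_⟩
  · rintro ⟨x, hx⟩
    rw [eps_outer, Fin.sum_univ_two]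
    simp only [kite, Finset.mem_insert, Finset.mem_singleton, ← hbdef] at hx
    have e1 : (-1 + a) ⊗ₜ[ℚ] (1 + a) + (1 - a) ⊗ₜ[ℚ] (1 + a) = (0 : TT) := by
      rw [← TensorProduct.add_tmul]; simp
    rcases hx with rfl | rfl | rfl | rfl
    · simp [u, v, ev_apply, pts, Fin.sum_univ_two]
    · simp [u, v, ev_apply, pts, Fin.sum_univ_two]
    · simpa [u, v, ev_apply, pts, Fin.sum_univ_two, hb0] using e1
    · have e2 : (-1 + a) ⊗ₜ[ℚ] (1 + a) + (a - 1) ⊗ₜ[ℚ] (-a + -1) = (0 : TT) := by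
        rw [show -a + -1 = -(1 + a) by ring, show a - 1 = -1 + a by ring, TensorProduct.tmul_neg,
          add_neg_cancel]
      simpa [u, v, ev_apply, pts, Fin.sum_univ_two, hb0] using e2
  · funext α β
    rw [mu_outer, Fin.sum_univ_two]
    fin_cases α <;> fin_cases β <;> simp [u, v, idm]
    field_simp
    linarith

lemma exists_transc : ∃ a : ℝ, Transcendental ℚ a ∧ -1 < a ∧ a < 1 := by
  by_contra h
  push Not at h
  have h1 : Set.Ioo (-1 : ℝ) 1 ⊆ {x | IsAlgebraic ℚ x} := by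
    intro x hx
    by_contra hc
    exact absurd hx.2 (not_lt.2 (h x hc hx.1))
  have h2 := (Algebraic.countable ℚ ℝ).mono h1
  rw [Cardinal.Real.Ioo_countable_iff] at h2
  norm_num at h2

end Vale.Agent.P058
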