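import Vale.Agent.P058.Suff

namespace Vale.Agent.P058

open scoped TensorProduct InnerProductSpace

variable {K : Type} {d : ℕ}

abbrev Eu (n : ℕ) := EuclideanSpace ℝ (Fin n)

noncomputable def Phi {D : ℕ} (y : Fin D → ℝ) : TT := ∑ k, y k ⊗ₜ[ℚ] y k

noncomputable def fam {n : ℕ} (T : Eu d →ₗ[ℝ] Eu n) (a0 : Fin d → ℝ) (b : Fin n → ℝ) (k : Fin n) :
    V d
  | none => b k - (T (WithLp.toLp 2 a0)).ofLp k
  | some α => (T (EuclideanSpace.single α 1)).ofLp k

lemma ev_fam {n : ℕ} (T : Eu d →ₗ[ℝ] Eu n) (a0 : Fin d → ℝ) (b : Fin n → ℝ) (k : Fin n)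
    (y : Fin d → ℝ) :
    ev y (fam T a0 b k) = b k + (T (WithLp.toLp 2 y - WithLp.toLp 2 a0)).ofLp k := by
  have : (WithLp.toLp 2 y : Eu d) = ∑ α, y α • EuclideanSpace.single α (1 : ℝ) := by
    ext β
    simp [Pi.single_apply]
  rw [ev_apply, map_sub, this, map_sum]
  simp only [fam, map_smul, WithLp.ofLp_sub, WithLp.ofLp_sum, WithLp.ofLp_smul, Pi.sub_apply,
    Finset.sum_apply, Pi.smul_apply, smul_eq_mul, mul_comm]
  ring

lemma sum_fam {n : ℕ} (T : Eu d →ₗ[ℝ] Eu n) (a0 : Fin d → ℝ) (b : Fin n → ℝ) (α β : Fin d) :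
    ∑ k, fam T a0 b k (some α) * fam T a0 b k (some β) =
      ⟪T (EuclideanSpace.single α 1), T (EuclideanSpace.single β 1)⟫_ℝ := by
  simp [fam, PiLp.inner_apply, mul_comm]

lemma inner_pol {n : ℕ} (x : K → Fin n → ℝ) (i0 i l : K) :
    ⟪(WithLp.toLp 2 (x i) - WithLp.toLp 2 (x i0) : Eu n),
      WithLp.toLp 2 (x l) - WithLp.toLp 2 (x i0)⟫_ℝ =
      (Dm x i i0 + Dm x l i0 - Dm x i l) / 2 := by
  simp only [PiLp.inner_apply, Dm, ← Finset.sum_add_distrib, ← Finset.sum_sub_distrib,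
    Finset.sum_div]
  refine Finset.sum_congr rfl fun k _ => ?_
  simp
  ring

lemma copy [Fintype K] (a : K → Fin d → ℝ) {D : ℕ} (x : K → Fin D → ℝ) (h : Dm x = Dm a) (i0 : K) :
    ∃ P : MT d, mu P = idm d ∧ ∀ i, eps (a i) P = Phi (x i) := by
  classical
  let a' : K → Eu d := fun i => WithLp.toLp 2 (a i) - WithLp.toLp 2 (a i0)
  let x' : K → Eu D := fun i => WithLp.toLp 2 (x i) - WithLp.toLp 2 (x i0)
  have hin : ∀ i l, ⟪x' i, x' l⟫_ℝ = ⟪a' i, a' l⟫_ℝ := fun i l => by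
    simp only [a', x', inner_pol, h]
  let La := Fintype.linearCombination ℝ a'
  let Lx := Fintype.linearCombination ℝ x'
  have hL : ∀ c c', ⟪Lx c, Lx c'⟫_ℝ = ⟪La c, La c'⟫_ℝ := fun c c' => by
    simp only [La, Lx, Fintype.linearCombination_apply, sum_inner, inner_sum, inner_smul_left,
      inner_smul_right, hin]
  obtain ⟨σ, hσ⟩ := La.rangeRestrict.exists_rightInverse_of_surjective La.range_rangeRestrict
  have hσ' : ∀ w, La (σ w) = w := fun w => congrArg Subtype.val (LinearMap.congr_fun hσ w)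
  let W := LinearMap.range La
  let T : Eu d →ₗ[ℝ] Eu D := Lx ∘ₗ σ ∘ₗ (W.orthogonalProjectionOnto : Eu d →ₗ[ℝ] W)
  let R : Eu d →ₗ[ℝ] Eu d := (Wᗮ.starProjection : Eu d →ₗ[ℝ] Eu d)
  have hTR : ∀ y z, ⟪T y, T z⟫_ℝ + ⟪R y, R z⟫_ℝ = ⟪y, z⟫_ℝ := by
    intro y z
    have e1 : ⟪T y, T z⟫_ℝ = ⟪W.starProjection y, W.starProjection z⟫_ℝ := by
      simp only [T, LinearMap.comp_apply, ContinuousLinearMap.coe_coe, hL, hσ']
      rfl
    have e2 : ∀ y z, ⟪W.starProjection y, Wᗮ.starProjection z⟫_ℝ = 0 := fun y z =>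
      Submodule.inner_right_of_mem_orthogonal (W.starProjection_apply_mem y)
        (Wᗮ.starProjection_apply_mem z)
    conv_rhs => rw [← W.starProjection_add_starProjection_orthogonal y,
      ← W.starProjection_add_starProjection_orthogonal z]
    rw [inner_add_left, inner_add_right, inner_add_right, e2,
      real_inner_comm (W.starProjection z) (Wᗮ.starProjection y), e2, e1]
    simp [R]
  have hmem : ∀ i, a' i ∈ W := fun i => ⟨Pi.single i 1, by simp [La]⟩
  have hT : ∀ i, T (a' i) = x' i := by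
    intro i
    have e1 : T (a' i) = Lx (σ ⟨a' i, hmem i⟩) := by
      simp only [T, LinearMap.comp_apply, ContinuousLinearMap.coe_coe]
      rw [Submodule.orthogonalProjectionOnto_mem_subspace_eq_self (⟨a' i, hmem i⟩ : W)]
    have e2 : x' i = Lx (Pi.single i 1) := by simp [Lx]
    have e3 : a' i = La (Pi.single i 1) := by simp [La]
    rw [e1, e2, ← sub_eq_zero, ← map_sub, ← inner_self_eq_zero (𝕜 := ℝ), hL, map_sub, hσ',
      ← e3, sub_self, inner_zero_left]
  have hR : ∀ i, R (a' i) = 0 := fun i =>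
    Submodule.starProjection_orthogonal_apply_eq_zero (hmem i)
  refine ⟨outer (Sum.elim (fam T (a i0) (x i0)) (fam R (a i0) 0))
    (Sum.elim (fam T (a i0) (x i0)) (fam R (a i0) 0)), ?_, fun i => ?_⟩
  · funext α β
    rw [mu_outer, Fintype.sum_sum_type]
    simp only [Sum.elim_inl, Sum.elim_inr, sum_fam, hTR, idm]
    simp [EuclideanSpace.inner_single_left, Pi.single_apply]
  · rw [eps_outer, Fintype.sum_sum_type]
    simp only [Sum.elim_inl, Sum.elim_inr, ev_fam]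
    have e1 := hT i
    have e2 := hR i
    simp only [a', x'] at e1 e2
    simp [e1, e2, Phi]

lemma eps_const (x : Fin d → ℝ) (t : TT) : eps x (Matrix.single none none t) = t := by
  classical
  change ∑ α, ∑ β, (homog x α ⊗ₜ[ℚ] (1 : ℝ)) * (Matrix.single none none t : MT d) α β *
    ((1 : ℝ) ⊗ₜ[ℚ] homog x β) = t
  simp [Fintype.sum_option, homog, ← Algebra.TensorProduct.one_def]

lemma mu_const (t : TT) : mu (Matrix.single none none t : MT d) = 0 := by
  funext α β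
  change LinearMap.mul' ℚ ℝ ((Matrix.single none none t : MT d) (some α) (some β)) = 0
  simp

lemma Dm_eq_of_dist {D : ℕ} (A : Finset (Eu d)) (φ : A → Eu D)
    (h : ∀ x y : A, dist (φ x) (φ y) = dist (x : Eu d) y) :
    Dm (fun i => (φ i).ofLp) = Dm (pts A) :=
  funext fun i => funext fun l => (dist_eq_iff _ _ _ _).1 (h i l)

theorem crit_of_ramsey (A : Finset (Eu d)) (hA : A.Nonempty) (h : IsRamsey A) :
    CritK (pts A) := by
  classical
  by_contra hcon
  obtain ⟨a0, ha0⟩ := hA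
  let i0 : A := ⟨a0, ha0⟩
  let ep : MT d →ₗ[ℚ] (A → TT) := LinearMap.pi fun i => eps (pts A i)
  have hnot : idm d ∉ (LinearMap.ker ep).map mu := by
    rintro ⟨P, h1, h2⟩
    exact hcon ⟨P, fun i => congrFun (LinearMap.mem_ker.1 h1) i, h2⟩
  obtain ⟨θ0, h1, h2⟩ := Submodule.exists_dual_map_eq_bot_of_notMem hnot inferInstance
  let θ := (θ0 (idm d))⁻¹ • θ0
  have hθ1 : θ (idm d) = 1 := by simp [θ, h1]
  have hmem : θ ∘ₗ mu ∈ LinearMap.range ep.dualMap := by
    rw [LinearMap.range_dualMap_eq_dualAnnihilator_ker, Submodule.mem_dualAnnihilator]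
    intro P hP
    have : θ0 (mu P) ∈ ((LinearMap.ker ep).map mu).map θ0 :=
      Submodule.mem_map_of_mem (Submodule.mem_map_of_mem hP)
    rw [h2, Submodule.mem_bot] at this
    simp [θ, this]
  obtain ⟨Λ, hΛ⟩ := hmem
  have hΛ' : ∀ P, ∑ i, Λ (Pi.single i (eps (pts A i) P)) = θ (mu P) := by
    intro P
    rw [← map_sum]
    have := LinearMap.congr_fun hΛ P
    rw [LinearMap.dualMap_apply] at this
    rw [Finset.univ_sum_single (fun i => eps (pts A i) P)]
    exact this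
  set N := Fintype.card A with hN
  have hN0 : 0 < N := Fintype.card_pos_iff.2 ⟨i0⟩
  haveI : NeZero (2 * N) := ⟨by omega⟩
  have hr : 2 ≤ Fintype.card (A → ZMod (2 * N)) := by
    haveI : Fact (1 < 2 * N) := ⟨by omega⟩
    haveI : Nonempty A := ⟨i0⟩
    exact Fintype.one_lt_card
  obtain ⟨D, -, hD⟩ := h _ hr
  obtain ⟨φ, h3, k, h4⟩ := hD fun y => Fintype.equivFin (A → ZMod (2 * N))
    fun i => ((⌊(N : ℚ) * Λ (Pi.single i (Phi y.ofLp))⌋ : ℤ) : ZMod (2 * N))
  obtain ⟨P, p1, p2⟩ := copy (pts A) _ (Dm_eq_of_dist A φ h3) i0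
  have s1 : ∑ i, Λ (Pi.single i (Phi (φ i).ofLp)) = 1 := by
    rw [← hθ1, ← p1, ← hΛ']
    simp only [p2]
  have s2 : ∑ i, Λ (Pi.single i (Phi (φ i0).ofLp)) = 0 := by
    have := hΛ' (Matrix.single none none (Phi (φ i0).ofLp))
    simpa only [eps_const, mu_const, map_zero] using this
  have hdv : ∀ i : A, ((2 * N : ℕ) : ℤ) ∣ ⌊(N : ℚ) * Λ (Pi.single i (Phi (φ i0).ofLp))⌋ -
      ⌊(N : ℚ) * Λ (Pi.single i (Phi (φ i).ofLp))⌋ := by
    intro i
    rw [← ZMod.intCast_eq_intCast_iff_dvd_sub]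
    exact congrFun ((Fintype.equivFin _).injective ((h4 i).trans (h4 i0).symm)) i
  choose m hm using hdv
  have hb : ∀ i : A, |(N : ℚ) * Λ (Pi.single i (Phi (φ i).ofLp)) -
      N * Λ (Pi.single i (Phi (φ i0).ofLp)) + 2 * N * m i| < 1 := by
    intro i
    have := congrArg (Int.cast : ℤ → ℚ) (hm i)
    push_cast at this
    rw [← this, abs_lt]
    have a1 := Int.floor_le ((N : ℚ) * Λ (Pi.single i (Phi (φ i).ofLp)))
    have a2 := Int.lt_floor_add_one ((N : ℚ) * Λ (Pi.single i (Phi (φ i).ofLp)))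
    have a3 := Int.floor_le ((N : ℚ) * Λ (Pi.single i (Phi (φ i0).ofLp)))
    have a4 := Int.lt_floor_add_one ((N : ℚ) * Λ (Pi.single i (Phi (φ i0).ofLp)))
    constructor <;> linarith
  have hs : |∑ i : A, ((N : ℚ) * Λ (Pi.single i (Phi (φ i).ofLp)) -
      N * Λ (Pi.single i (Phi (φ i0).ofLp)) + 2 * N * m i)| < N := by
    refine (Finset.abs_sum_le_sum_abs _ _).trans_lt ?_
    have := Finset.sum_lt_sum_of_nonempty (s := Finset.univ) ⟨i0, Finset.mem_univ _⟩
      fun i _ => hb i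
    simpa only [Finset.sum_const, Finset.card_univ, nsmul_eq_mul, mul_one] using this
  rw [Finset.sum_add_distrib, Finset.sum_sub_distrib, ← Finset.mul_sum, ← Finset.mul_sum,
    ← Finset.mul_sum, s1, s2, ← Int.cast_sum, abs_lt] at hs
  have hNq : (0 : ℚ) < N := by exact_mod_cast hN0
  have e1 : ((∑ i, m i : ℤ) : ℚ) < 0 := by nlinarith [hs.2]
  have e2 : (-1 : ℚ) < ((∑ i, m i : ℤ) : ℚ) := by nlinarith [hs.1]
  have e1' : ∑ i, m i < 0 := by exact_mod_cast e1
  have e2' : -1 < ∑ i, m i := by exact_mod_cast e2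
  omega

/-- distance preserving permutations of a finite set -/
def dperm {n : ℕ} (X : Finset (Eu n)) : Subgroup (Equiv.Perm X) where
  carrier := {σ | ∀ x y : X, dist (σ x : Eu n) (σ y) = dist (x : Eu n) y}
  mul_mem' := fun {σ τ} hσ hτ x y => (hσ _ _).trans (hτ x y)
  one_mem' := fun _ _ => rfl
  inv_mem' := fun {σ} hσ x y => by
    have := hσ (σ⁻¹ x) (σ⁻¹ y)
    simpa using this.symm

lemma dperm_trans {n : ℕ} {X : Finset (Eu n)} (hX : IsTransitive X) (x y : X) :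
    ∃ σ : dperm X, σ.1 x = y := by
  obtain ⟨f, h1, h2⟩ := hX x x.2 y y.2
  have hm : ∀ z : X, f z ∈ X := fun z => by
    have : f z ∈ f '' (X : Set (Eu n)) := ⟨z, z.2, rfl⟩
    rwa [h1] at this
  have hinj : Function.Injective fun z : X => (⟨f z, hm z⟩ : X) := fun z w h =>
    Subtype.ext (f.injective (congrArg Subtype.val h))
  exact ⟨⟨Equiv.ofBijective _ (Finite.injective_iff_bijective.1 hinj), fun z w => f.dist_eq z w⟩,
    Subtype.ext h2⟩

lemma sum_dperm {n : ℕ} {X : Finset (Eu n)} (hX : IsTransitive X) [Fintype (dperm X)]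
    {M : Type} [AddCommMonoid M] (F : X → M) (x y : X) :
    ∑ σ : dperm X, F (σ.1 x) = ∑ σ : dperm X, F (σ.1 y) := by
  obtain ⟨τ, rfl⟩ := dperm_trans hX x y
  exact (Equiv.sum_comp (Equiv.mulRight τ) fun σ : dperm X => F (σ.1 x)).symm

theorem crit_of_sub (A : Finset (Eu d)) (hA : A.Nonempty) (h : IsSubtransitive A) :
    CritK (pts A) := by
  classical
  obtain ⟨n, X, hX, φ, h1, h2⟩ := h
  obtain ⟨a0, ha0⟩ := hA
  let i0 : A := ⟨a0, ha0⟩
  choose P p1 p2 using fun σ : dperm X => copy (pts A) _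
    (Dm_eq_of_dist A (fun i => (σ.1 ⟨φ i, h1 i⟩ : Eu n)) fun x y => (σ.2 _ _).trans (h2 x y)) i0
  have hc : (Fintype.card (dperm X) : ℚ) ≠ 0 := by exact_mod_cast Fintype.card_ne_zero
  refine ⟨(Fintype.card (dperm X) : ℚ)⁻¹ • (∑ σ, P σ - Matrix.single none none
    (∑ σ : dperm X, Phi (σ.1 ⟨φ i0, h1 i0⟩ : Eu n).ofLp)), fun i => ?_, ?_⟩
  · rw [map_smul, map_sub, map_sum, eps_const]
    simp only [p2]
    rw [sum_dperm hX (fun z => Phi (z : Eu n).ofLp) ⟨φ i, h1 i⟩ ⟨φ i0, h1 i0⟩, sub_self, smul_zero]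
  · rw [map_smul, map_sub, map_sum, mu_const]
    simp only [p1, sub_zero, Finset.sum_const, Finset.card_univ]
    rw [← Nat.cast_smul_eq_nsmul ℚ, smul_smul, inv_mul_cancel₀ hc, one_smul]

end Vale.Agent.P058
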