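import Vale.Agent.P058.Sys

namespace Vale.Agent.P058

open Subgroup
open scoped commutatorElement

section grp

variable {Q : Type} [Group Q]

lemma comm_mul_right {x : Q} (hx : ∀ g, ⁅x, g⁆ ∈ center Q) (g h : Q) :
    ⁅x, g * h⁆ = ⁅x, g⁆ * ⁅x, h⁆ := by
  have h1 : ⁅x, g * h⁆ = ⁅x, g⁆ * (g * ⁅x, h⁆) * g⁻¹ := by
    simp only [commutatorElement_def]; group
  rw [h1, Subgroup.mem_center_iff.1 (hx h) g]
  group

/-- commutator with a fixed element -/
def commHom {x : Q} (hx : ∀ g, ⁅x, g⁆ ∈ center Q) : Q →* Q :=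
  MonoidHom.mk' (fun g => ⁅x, g⁆) (comm_mul_right hx)

lemma comm_pow_left {x : Q} (hx : ∀ g, ⁅x, g⁆ ∈ center Q) (g : Q) (n : ℕ) :
    ⁅x ^ n, g⁆ = ⁅x, g⁆ ^ n := by
  induction n with
  | zero => simp
  | succ n ih =>
    have h1 : ⁅x ^ (n + 1), g⁆ = (x * ⁅x ^ n, g⁆) * x⁻¹ * ⁅x, g⁆ := by
      simp only [commutatorElement_def]; group
    rw [h1, ih, Subgroup.mem_center_iff.1 (pow_mem (hx g) n) x, mul_inv_cancel_right,
      pow_succ]

lemma comm_mul_center {r : Q} (hr : r ∈ center Q) (y g : Q) : ⁅y * r, g⁆ = ⁅y, g⁆ := by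
  have h1 : ⁅y * r, g⁆ = y * (r * g) * r⁻¹ * y⁻¹ * g⁻¹ := by
    simp only [commutatorElement_def]; group
  rw [h1, ← Subgroup.mem_center_iff.1 hr g, commutatorElement_def]
  group

end grp

lemma mk_center {n : ℕ} {x : FreeGroup ℝ} (hx : x ∈ lcs n) :
    (QuotientGroup.mk' (lcs (n + 1)) x) ∈ center (FreeGroup ℝ ⧸ lcs (n + 1)) := by
  rw [Subgroup.mem_center_iff]
  intro g
  obtain ⟨g, rfl⟩ := QuotientGroup.mk'_surjective _ g
  have : QuotientGroup.mk' (lcs (n + 1)) ⁅x, g⁆ = 1 :=
    (QuotientGroup.eq_one_iff _).2 (Subgroup.commutator_mem_commutator hx (Subgroup.mem_top g))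
  rw [map_commutatorElement, commutatorElement_eq_one_iff_mul_comm] at this
  exact this.symm

noncomputable def psi (m : ℕ) : FreeGroup ℝ →* FreeGroup ℝ :=
  FreeGroup.lift fun s => FreeGroup.of s ^ m

lemma psi_pow (m j : ℕ) : ∀ x ∈ lcs j,
    QuotientGroup.mk' (lcs (j + 1)) (psi m x) = QuotientGroup.mk' (lcs (j + 1)) x ^ m ^ (j + 1) := by
  have base : ∀ x, QuotientGroup.mk' (lcs 1) (psi m x) = QuotientGroup.mk' (lcs 1) x ^ m := by
    intro x
    induction x using FreeGroup.induction_on with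
    | C1 => rw [map_one, map_one, one_pow]
    | of s => rw [psi, FreeGroup.lift_apply_of, map_pow]
    | inv_of s ih => rw [map_inv, map_inv, ih, map_inv, inv_pow]
    | mul x y hx hy =>
      rw [map_mul, map_mul, hx, hy, map_mul, Commute.mul_pow]
      exact (Subgroup.mem_center_iff.1 (mk_center (n := 0) (Subgroup.mem_top y)) _)
  induction j with
  | zero => intro x _; simpa using base x
  | succ j ih =>
    set π := QuotientGroup.mk' (lcs (j + 1 + 1)) with hπ
    let H : Subgroup (FreeGroup ℝ) :=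
      { carrier := {x | x ∈ lcs (j + 1) ∧ π (psi m x) = π x ^ m ^ (j + 1 + 1)}
        mul_mem' := by
          rintro x y ⟨h1, h2⟩ ⟨k1, k2⟩
          refine ⟨mul_mem h1 k1, ?_⟩
          rw [map_mul, map_mul, h2, k2, map_mul, Commute.mul_pow]
          exact (Subgroup.mem_center_iff.1 (mk_center k1) _)
        one_mem' := ⟨one_mem _, by rw [map_one, map_one, one_pow]⟩
        inv_mem' := by
          rintro x ⟨h1, h2⟩
          exact ⟨inv_mem h1, by rw [map_inv, map_inv, h2, map_inv, inv_pow]⟩ }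
    have : lcs (j + 1) ≤ H := by
      rw [lcs, Subgroup.lowerCentralSeries_succ, Subgroup.commutator_le]
      intro x hx g _
      refine ⟨Subgroup.commutator_mem_commutator hx (Subgroup.mem_top g), ?_⟩
      have hc : ∀ g', ⁅π x, g'⁆ ∈ center (FreeGroup ℝ ⧸ lcs (j + 1 + 1)) := by
        intro g'
        obtain ⟨g', rfl⟩ := QuotientGroup.mk'_surjective _ g'
        rw [← map_commutatorElement]
        exact mk_center (Subgroup.commutator_mem_commutator hx (Subgroup.mem_top g'))
      have hr : (x ^ m ^ (j + 1))⁻¹ * psi m x ∈ lcs (j + 1) := by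
        rw [← QuotientGroup.eq]
        exact ((ih x hx).trans (map_pow _ _ _).symm).symm
      have hr' : (g ^ m)⁻¹ * psi m g ∈ lcs 1 := by
        rw [← QuotientGroup.eq]
        exact ((base g).trans (map_pow _ _ _).symm).symm
      have hk : lcs 1 ≤ ((commHom hc).comp π).ker := by
        rw [lcs, Subgroup.lowerCentralSeries_succ, Subgroup.commutator_le]
        intro u _ w _
        rw [MonoidHom.mem_ker, map_commutatorElement, commutatorElement_eq_one_iff_mul_comm]
        exact Subgroup.mem_center_iff.1 (hc _) _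
      have e1 : π (psi m x) = π x ^ m ^ (j + 1) * π ((x ^ m ^ (j + 1))⁻¹ * psi m x) := by
        rw [← map_pow, ← map_mul, mul_inv_cancel_left]
      have e2 : ⁅π x, π (psi m g)⁆ = ⁅π x, π g⁆ ^ m := by
        have := hk hr'
        rw [MonoidHom.mem_ker, map_mul, map_inv, map_pow, inv_mul_eq_one] at this
        exact this.symm
      rw [map_commutatorElement, map_commutatorElement, map_commutatorElement, e1,
        comm_mul_center (mk_center hr), comm_pow_left hc, e2, ← pow_mul, pow_succ' m (j + 1)]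
    exact fun x hx => (this hx).2

variable {K : Type} {d : ℕ}

def rep (n : ℕ) (W : List (V d)) : List (V d) := (List.replicate n W).flatten

def psiL (m : ℕ) (W : List (V d)) : List (V d) := W.flatMap (List.replicate m)

lemma rep_succ (n : ℕ) (W : List (V d)) : rep (n + 1) W = W ++ rep n W := by
  simp [rep, List.replicate_succ]

lemma rowF_rep (x : Fin d → ℝ) (n : ℕ) (W : List (V d)) : rowF x (rep n W) = rowF x W ^ n := by
  induction n with
  | zero => simp [rep]
  | succ n ih => rw [rep_succ, rowF_append, ih, pow_succ']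

lemma EL_rep (a : K → Fin d → ℝ) (n : ℕ) (W : List (V d)) :
    EL a (rep n W) = (n : ℝ) • EL a W := by
  induction n with
  | zero => simp [rep]
  | succ n ih => rw [rep_succ, EL_append, ih]; push_cast; rw [add_smul, one_smul, add_comm]

lemma tauL_rep (n : ℕ) (W : List (V d)) : tauL (rep n W) = n * tauL W := by
  induction n with
  | zero => simp [rep]
  | succ n ih => rw [rep_succ, tauL_append, ih]; push_cast; ring

lemma psiL_cons (m : ℕ) (f : V d) (W : List (V d)) : psiL m (f :: W) = rep m [f] ++ psiL m W := by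
  simp [psiL, rep]

lemma rowF_psiL (x : Fin d → ℝ) (m : ℕ) (W : List (V d)) :
    rowF x (psiL m W) = psi m (rowF x W) := by
  induction W with
  | nil => simp [psiL]
  | cons f W ih => rw [psiL_cons, rowF_append, ih, rowF_rep]; simp [psi]

lemma EL_psiL (a : K → Fin d → ℝ) (m : ℕ) (W : List (V d)) :
    EL a (psiL m W) = (m : ℝ) • EL a W := by
  induction W with
  | nil => simp [psiL]
  | cons f W ih => rw [psiL_cons, EL_append, ih, EL_rep]; simp

lemma tauL_psiL (m : ℕ) (W : List (V d)) : tauL (psiL m W) = m * tauL W := by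
  induction W with
  | nil => simp [psiL]
  | cons f W ih => rw [psiL_cons, tauL_append, ih, tauL_rep]; simp [mul_add]

lemma PairP.succ {a : K → Fin d → ℝ} {j : ℕ} (h : PairP a (j + 1)) : PairP a (j + 1 + 1) := by
  intro ε hε
  obtain ⟨U, W, c, hc, h1, h2, h3⟩ := h (ε / 4) (by linarith)
  obtain ⟨m0, hm0⟩ := exists_nat_ge (2 * tauL U / (ε * c))
  set m := m0 + 2 with hm
  have hm2 : (2 : ℝ) ≤ m := by rw [hm]; push_cast; linarith [(Nat.cast_nonneg m0 : (0 : ℝ) ≤ m0)]
  have hM : (m : ℝ) * m ≤ ((m ^ (j + 1 + 1) : ℕ) : ℝ) := by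
    push_cast
    have : (1 : ℝ) ≤ (m : ℝ) ^ j := one_le_pow₀ (by linarith)
    calc (m : ℝ) * m = 1 * (m * m) := by ring
      _ ≤ (m : ℝ) ^ j * (m * m) := by gcongr
      _ = _ := by ring
  generalize hMM : m ^ (j + 1 + 1) = M at hM
  refine ⟨rep M U ++ psiL m W, rep M W ++ psiL m U, (M - m) * c,
    mul_pos (by nlinarith) hc, fun i => ?_, ?_, ?_⟩
  · rw [← QuotientGroup.eq]
    have e := psi_pow m (j + 1) _ (h1 i)
    have hz := mk_center (h1 i)
    rw [hMM] at e
    set x := (rowF (a i) W)⁻¹ * rowF (a i) U with hx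
    have hU : rowF (a i) U = rowF (a i) W * x := by rw [hx, mul_inv_cancel_left]
    change QuotientGroup.mk' (lcs (j + 1 + 1)) _ = QuotientGroup.mk' (lcs (j + 1 + 1)) _
    rw [rowF_append, rowF_append, rowF_rep, rowF_rep, rowF_psiL, rowF_psiL, hU]
    simp only [map_mul, map_pow, e]
    rw [Commute.mul_pow (Subgroup.mem_center_iff.1 hz _), mul_assoc,
      Subgroup.mem_center_iff.1 (pow_mem hz M)]
  · rw [EL_append, EL_append, EL_rep, EL_rep, EL_psiL, EL_psiL, h2]
    funext x y
    simp only [Pi.add_apply, Pi.smul_apply, smul_eq_mul]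
    ring
  · rw [tauL_append, tauL_rep, tauL_psiL]
    have hεc : 0 < ε * c := mul_pos hε hc
    rw [div_le_iff₀ hεc] at hm0
    have e1 : (M : ℝ) * tauL W ≤ M * (ε / 4 * c) := by gcongr
    have e2 : 2 * tauL U ≤ (m - 1) * (ε * c) := by
      have : (m0 : ℝ) ≤ m - 1 := by rw [hm]; push_cast; linarith
      nlinarith
    have e3 : (m : ℝ) * (2 * tauL U) ≤ m * ((m - 1) * (ε * c)) := by gcongr
    have e4 : (m : ℝ) * (m - 1) * (ε * c) ≤ (M - m) * (ε * c) := by gcongr; linarith
    have e5 : (M : ℝ) / 2 * (ε * c) ≤ (M - m) * (ε * c) := by gcongr; nlinarith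
    nlinarith

lemma PairP.all {a : K → Fin d → ℝ} (h : PairP a 1) (n : ℕ) : PairP a n := by
  cases n with
  | zero =>
    intro ε hε
    obtain ⟨U, W, c, hc, -, h2, h3⟩ := h ε hε
    exact ⟨U, W, c, hc, fun _ => Subgroup.mem_top _, h2, h3⟩
  | succ n =>
    induction n with
    | zero => exact h
    | succ n ih => exact ih.succ

end Vale.Agent.P058
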