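import Vale.Agent.P058.Abel

namespace Vale.Agent.P058

open scoped TensorProduct

abbrev Q3 := RR ⧸ II ^ 3

noncomputable def bb (s t : ℝ) : Q3 := Ideal.Quotient.mk (II ^ 3) ((sg s - 1) * (sg t - 1))

lemma bb_comm (s t : ℝ) : bb s t = bb t s := by rw [bb, bb, mul_comm]

lemma bb_add (s s' t : ℝ) : bb (s + s') t = bb s t + bb s' t := by
  rw [bb, bb, bb, ← map_add, Ideal.Quotient.eq]
  have : (sg (s + s') - 1) * (sg t - 1) - ((sg s - 1) * (sg t - 1) + (sg s' - 1) * (sg t - 1)) =
      (sg s - 1) * (sg s' - 1) * (sg t - 1) := by rw [sg_add]; ring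
  rw [this]
  exact mem_succ (mem_sq (sg_sub_mem _) (sg_sub_mem _)) (sg_sub_mem _)

/-- biadditive map from a symmetric left-additive function -/
def mkBi {X A : Type} [AddCommGroup X] [AddCommGroup A] (f : X → X → A)
    (hc : ∀ x y, f x y = f y x) (ha : ∀ x x' y, f (x + x') y = f x y + f x' y) : X →+ X →+ A :=
  AddMonoidHom.mk' (fun x => AddMonoidHom.mk' (f x) fun y y' => by rw [hc, ha, hc y, hc y'])
    fun x x' => by ext y; simp [ha]

noncomputable def bH : ℝ →+ ℝ →+ Q3 := mkBi bb bb_comm bb_add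

noncomputable def bT : TT →+ Q3 := TensorProduct.liftAddHom bH (balanced bH)

lemma bT_tmul (s t : ℝ) : bT (s ⊗ₜ[ℚ] t) = bb s t := TensorProduct.liftAddHom_tmul _ _ _ _

variable {K : Type} {d : ℕ}

abbrev MM (K : Type) := (K → Q3) × (K → K → ℝ)

noncomputable def BB (a : K → Fin d → ℝ) (u v : V d) : MM K :=
  (fun i => bb (ev (a i) u) (ev (a i) v),
    fun i l => 2 * ((ev (a i) u - ev (a l) u) * (ev (a i) v - ev (a l) v)))

noncomputable def BH (a : K → Fin d → ℝ) : V d →+ V d →+ MM K :=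
  mkBi (BB a) (fun u v => by
      refine Prod.ext (funext fun i => bb_comm _ _) (funext fun i => funext fun l => ?_)
      simp only [BB]; ring)
    (fun u u' v => by
      refine Prod.ext (funext fun i => ?_) (funext fun i => funext fun l => ?_)
      · simp only [BB, map_add, bb_add, Prod.fst_add, Pi.add_apply]
      · simp only [BB, map_add, Prod.snd_add, Pi.add_apply]; ring)

lemma BH_apply (a : K → Fin d → ℝ) (u v : V d) : BH a u v = BB a u v := rfl

lemma BH_comm (a : K → Fin d → ℝ) (u v : V d) : BH a u v = BH a v u := by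
  refine Prod.ext (funext fun i => bb_comm _ _) (funext fun i => funext fun l => ?_)
  simp only [BH_apply, BB]; ring

noncomputable def Th (a : K → Fin d → ℝ) : SS d →+ MM K :=
  AddMonoidHom.prod (AddMonoidHom.pi fun i =>
    ((Ideal.Quotient.mk (II ^ 3)).comp (er (a i))).toAddMonoidHom) (ES a)

lemma Th_fst (a : K → Fin d → ℝ) (ν : SS d) (i : K) :
    (Th a ν).1 i = Ideal.Quotient.mk (II ^ 3) (er (a i) ν) := rfl

lemma Th_snd (a : K → Fin d → ℝ) (ν : SS d) : (Th a ν).2 = ES a ν := rfl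

lemma Th_sq (a : K → Fin d → ℝ) (u : V d) :
    Th a (sg u + sg (-u) - (sg 0 + sg 0)) = BH a u u := by
  refine Prod.ext (funext fun i => ?_) ?_
  · rw [Th_fst, BH_apply]
    simp only [BB, bb, map_sub (er (a i)), map_add (er (a i)), er_sg, map_neg, map_zero, sg_zero,
      map_one (er (a i))]
    rw [Ideal.Quotient.eq]
    have h1 : sg (ev (a i) u) * sg (-ev (a i) u) = 1 := by
      rw [← sg_add, add_neg_cancel, sg_zero]
    have : sg (ev (a i) u) + sg (-ev (a i) u) - (1 + 1) -
        (sg (ev (a i) u) - 1) * (sg (ev (a i) u) - 1) =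
        (sg (ev (a i) u) - 1) * (sg (ev (a i) u) - 1) * (sg (-ev (a i) u) - 1) := by
      linear_combination (2 - sg (ev (a i) u)) * h1
    rw [this]
    exact mem_succ (mem_sq (sg_sub_mem _) (sg_sub_mem _)) (sg_sub_mem _)
  · rw [Th_snd, BH_apply]
    simp only [map_sub, map_add, ES_sg, En_neg, En_zero]
    funext i l
    simp only [BB, En, Pi.sub_apply, Pi.add_apply, Pi.zero_apply]
    ring

def Ach (a : K → Fin d → ℝ) (m : MM K) (t : ℝ) : Prop := ∃ ν, Th a ν = m ∧ Sm ν t

variable {a : K → Fin d → ℝ}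

lemma Ach.add {m m' : MM K} {t t' : ℝ} (h : Ach a m t) (h' : Ach a m' t') :
    Ach a (m + m') (t + t') := by
  obtain ⟨ν, h1, h2⟩ := h
  obtain ⟨ν', k1, k2⟩ := h'
  exact ⟨ν + ν', by rw [map_add, h1, k1], h2.add k2⟩

lemma Ach.congr {m m' : MM K} {t t' : ℝ} (h : Ach a m t) (hm : m = m') (ht : t ≤ t') :
    Ach a m' t' := by
  obtain ⟨ν, h1, h2⟩ := h
  exact ⟨ν, h1.trans hm, h2.mono ht⟩

lemma Ach.sum {ι : Type} (s : Finset ι) (m : ι → MM K) (t : ι → ℝ)
    (h : ∀ r, Ach a (m r) (t r)) : Ach a (∑ r ∈ s, m r) (∑ r ∈ s, t r) := by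
  classical
  induction s using Finset.induction_on with
  | empty => exact ⟨0, by simp, by simpa using sm_zero⟩
  | insert r s hr ih => rw [Finset.sum_insert hr, Finset.sum_insert hr]; exact (h r).add ih

lemma ach_sq (u : V d) : Ach a (BH a u u) 0 :=
  ⟨_, Th_sq a u, sg 0 + sg 0, add_mem (sg_pos _) (sg_pos _),
    by rw [sub_add_cancel]; exact add_mem (sg_pos _) (sg_pos _), by simp [tau_zero]⟩

lemma ach_nsq (u : V d) : Ach a (-BH a u u) (2 * tau u) :=
  ⟨-(sg u + sg (-u) - (sg 0 + sg 0)), by rw [map_neg, Th_sq], sg u + sg (-u),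
    add_mem (sg_pos _) (sg_pos _),
    by rw [neg_sub, sub_add_cancel]; exact add_mem (sg_pos _) (sg_pos _),
    by simp [tau_neg, two_mul]⟩

lemma ach_pol (u v : V d) : Ach a (BH a u v + BH a u v) (2 * tau u + 2 * tau v) := by
  refine (((ach_sq (u + v)).add (ach_nsq u)).add (ach_nsq v)).congr ?_ (by simp)
  simp only [map_add, AddMonoidHom.add_apply, BH_comm a v u]
  abel

lemma ach_scale (u v : V d) (q : ℚ) (hq : q ≠ 0) :
    Ach a (BH a u v + BH a u v) (2 * tau ((q : ℝ) • u) + 2 * tau ((q : ℝ)⁻¹ • v)) := by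
  refine (ach_pol _ _).congr ?_ le_rfl
  have : BH a ((q : ℝ) • u) ((q : ℝ)⁻¹ • v) = BH a u v := by
    rw [Rat.cast_smul_eq_qsmul, balanced, ← Rat.cast_smul_eq_qsmul ℝ, smul_smul,
      mul_inv_cancel₀ (by exact_mod_cast hq), one_smul]
  rw [this]

lemma ach_near (g w : V d) : Ach a (BH a g (g + w) + BH a g (g + w)) (2 * tau w) := by
  refine (((ach_sq g).add (ach_sq (g + w))).add (ach_nsq w)).congr ?_ (by simp)
  simp only [map_add, AddMonoidHom.add_apply, BH_comm a w g]
  abel

lemma continuous_tau : Continuous (tau : V d → ℝ) := by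
  unfold tau
  fun_prop

theorem CritK.ap (h : CritK a) : AP a 3 := by
  classical
  obtain ⟨ι, _, u, v, h1, h2⟩ := h.fam
  have hT : ∑ r, BH a (u r) (v r) = (0, (2 : ℝ) • Dm a) := by
    refine Prod.ext (funext fun i => ?_) (funext fun i => funext fun l => ?_)
    · rw [Prod.fst_sum, Finset.sum_apply]
      have := congrArg bT (h1 i)
      rw [map_sum, map_zero] at this
      simp only [bT_tmul] at this
      exact this
    · rw [Prod.snd_sum, Finset.sum_apply, Finset.sum_apply]
      simp only [BH_apply, BB, ev_sub, Pi.smul_apply, Dm, smul_eq_mul]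
      rw [← Finset.mul_sum]
      congr 1
      simp only [Finset.sum_mul_sum]
      rw [Finset.sum_comm]
      refine Finset.sum_congr rfl fun α _ => ?_
      rw [Finset.sum_comm]
      have : ∀ β, ∑ r, u r (some α) * (a i α - a l α) * (v r (some β) * (a i β - a l β)) =
          (if α = β then 1 else 0) * ((a i α - a l α) * (a i β - a l β)) := by
        intro β
        rw [← h2, Finset.sum_mul]
        exact Finset.sum_congr rfl fun r _ => by ring
      simp only [this, ite_mul, one_mul, zero_mul, Finset.sum_ite_eq, Finset.mem_univ, if_true]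
      ring
  intro ε hε
  obtain ⟨N0, hN0⟩ := exists_nat_ge ((∑ r, 2 * tau (v r)) / ε)
  set N : ℚ := N0 + 1 with hN
  have hN1 : (1 : ℝ) ≤ N := by rw [hN]; push_cast; linarith [(Nat.cast_nonneg N0 : (0 : ℝ) ≤ N0)]
  have hv : ∑ r, 2 * tau ((N : ℝ)⁻¹ • v r) ≤ ε := by
    simp only [tau_smul]
    have : ∑ r, 2 * ((N : ℝ)⁻¹ ^ 2 * tau (v r)) = (∑ r, 2 * tau (v r)) / N ^ 2 := by
      rw [Finset.sum_div]
      exact Finset.sum_congr rfl fun r _ => by field_simp
    rw [this, div_le_iff₀ (by positivity)]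
    rw [div_le_iff₀ hε] at hN0
    have : (N0 : ℝ) ≤ (N : ℝ) ^ 2 := by
      have : (N0 : ℝ) ≤ N := by rw [hN]; push_cast; linarith
      nlinarith
    nlinarith
  let g : Fin d → V d := fun α => Pi.single (some α) 1
  let rem : (ι × Fin d → ℝ) → ι → V d := fun q r => u r - ∑ α, q (r, α) • g α
  let w : (ι × Fin d → ℝ) → Fin d → V d := fun q α => ∑ r, q (r, α) • v r - g α
  let F : (ι × Fin d → ℝ) → ℝ := fun q =>
    ∑ α, 2 * tau (w q α) + ∑ r, 2 * tau ((N : ℝ) • rem q r)
  have hF : Continuous F := by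
    have := continuous_tau (d := d)
    simp only [F, w, rem]
    fun_prop
  have hF0 : F (fun p => u p.1 (some p.2)) = 0 := by
    have e1 : ∀ α, tau (w (fun p => u p.1 (some p.2)) α) = 0 := by
      intro α
      refine Finset.sum_eq_zero fun β _ => ?_
      simp only [w, g, Pi.sub_apply, Finset.sum_apply, Pi.smul_apply, smul_eq_mul, h2,
        Pi.single_apply, Option.some.injEq]
      by_cases hαβ : α = β
      · simp [hαβ]
      · simp [hαβ, Ne.symm hαβ]
    have e2 : ∀ r, tau (rem (fun p => u p.1 (some p.2)) r) = 0 := by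
      intro r
      refine Finset.sum_eq_zero fun β _ => ?_
      simp [rem, g, Finset.sum_apply, Pi.single_apply]
    simp only [F, e1, tau_smul, e2]
    simp
  have hd : DenseRange (Pi.map fun _ : ι × Fin d => ((↑) : ℚ → ℝ)) :=
    DenseRange.piMap fun _ => Rat.denseRange_cast
  obtain ⟨q, hq⟩ := hd.exists_mem_open (s := {q | F q < ε}) (isOpen_lt hF continuous_const)
    ⟨fun p => u p.1 (some p.2), by simpa [hF0] using hε⟩
  set q' : ι × Fin d → ℝ := Pi.map (fun _ => ((↑) : ℚ → ℝ)) q with hq'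
  have hq2 : F q' < ε := hq
  have hdec : ∑ r, BH a (u r) (v r) =
      ∑ α, BH a (g α) (g α + w q' α) + ∑ r, BH a (rem q' r) (v r) := by
    have e1 : ∀ α, BH a (g α) (g α + w q' α) = ∑ r, BH a (q' (r, α) • g α) (v r) := by
      intro α
      simp only [w, add_sub_cancel, map_sum]
      refine Finset.sum_congr rfl fun r _ => ?_
      simp only [hq', Pi.map_apply, Rat.cast_smul_eq_qsmul, balanced]
    simp only [e1]
    rw [Finset.sum_comm, ← Finset.sum_add_distrib]
    refine Finset.sum_congr rfl fun r _ => ?_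
    simp only [rem, map_sub, map_sum, AddMonoidHom.sub_apply, AddMonoidHom.finsetSum_apply]
    abel
  have hA := (Ach.sum Finset.univ _ _ fun α => ach_near (a := a) (g α) (w q' α)).add
    (Ach.sum Finset.univ _ _ fun r => ach_scale (a := a) (rem q' r) (v r) N
      (by rw [hN]; positivity))
  obtain ⟨ν, k1, k2⟩ := hA.congr (m' := (0, (4 : ℝ) • Dm a)) (t' := ε * 4) (by
      rw [Finset.sum_add_distrib, Finset.sum_add_distrib, add_add_add_comm, ← hdec, hT,
        Prod.mk_add_mk, add_zero, ← add_smul]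
      norm_num) (by
      rw [Finset.sum_add_distrib, ← add_assoc]
      have : F q' = ∑ α, 2 * tau (w q' α) + ∑ r, 2 * tau ((N : ℝ) • rem q' r) := rfl
      linarith)
  refine ⟨ν, 4, by norm_num, fun i => ?_, ?_, k2⟩
  · rw [← Ideal.Quotient.eq_zero_iff_mem, ← Th_fst, k1]; rfl
  · rw [← Th_snd, k1]

end Vale.Agent.P058
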