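import Vale.Agent.P058.Sys

namespace Vale.Agent.P058

open Filter Topology

attribute [local instance] Ultrafilter.mul Ultrafilter.semigroup

abbrev Wd := FreeMonoid ℝ

abbrev Bt := Ultrafilter Wd

lemma mem_mul_iff (U W : Bt) (C : Set Wd) : C ∈ U * W ↔ {s | {t | s * t ∈ C} ∈ W} ∈ U :=
  Ultrafilter.eventually_mul U W (· ∈ C)

lemma exists_min_idem : ∃ e : Bt, e * e = e ∧ ∀ x, ∃ z, z * (x * e) = e := by
  let 𝒮 : Set (Set Bt) := {L | IsClosed L ∧ L.Nonempty ∧ ∀ x y, y ∈ L → x * y ∈ L}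
  obtain ⟨L, hL⟩ : ∃ L, Minimal (· ∈ 𝒮) L := by
    refine zorn_superset 𝒮 fun c hcs hc => ?_
    rcases c.eq_empty_or_nonempty with rfl | hne
    · exact ⟨Set.univ, ⟨isClosed_univ, Set.univ_nonempty, fun _ _ _ => trivial⟩, by simp⟩
    · refine ⟨⋂₀ c, ⟨isClosed_sInter fun t ht => (hcs ht).1, ?_, fun x y hy => ?_⟩,
        fun s hs => Set.sInter_subset_of_mem hs⟩
      · obtain ⟨t, ht⟩ := hne
        haveI : Nonempty c := ⟨⟨t, ht⟩⟩
        have := IsCompact.nonempty_iInter_of_directed_nonempty_isCompact_isClosed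
          ((↑) : c → Set Bt) (DirectedOn.directed_val (IsChain.directedOn hc.symm))
          (fun i => (hcs i.2).2.1) (fun i => (hcs i.2).1.isCompact) (fun i => (hcs i.2).1)
        rwa [Set.sInter_eq_iInter]
      · exact Set.mem_sInter.2 fun t ht => (hcs ht).2.2 x y (Set.mem_sInter.1 hy t ht)
  obtain ⟨h1, h2, h3⟩ := hL.prop
  obtain ⟨e, he, hee⟩ := exists_idempotent_in_compact_subsemigroup
    (fun r : Bt => Ultrafilter.continuous_mul_left r) L h2 h1.isCompact
    (fun x _ y hy => h3 x y hy)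
  refine ⟨e, hee, fun x => ?_⟩
  have hmem : Set.range (· * (x * e)) ∈ 𝒮 :=
    ⟨(isCompact_range (Ultrafilter.continuous_mul_left _)).isClosed, Set.range_nonempty _, by
      rintro y _ ⟨z, rfl⟩
      exact ⟨y * z, mul_assoc _ _ _⟩⟩
  have hsub : Set.range (· * (x * e)) ⊆ L := by
    rintro _ ⟨z, rfl⟩
    exact h3 _ _ (h3 _ _ he)
  exact hL.le_of_le hmem hsub he

noncomputable def e0 : Bt := exists_min_idem.choose

lemma e0_idem : e0 * e0 = e0 := exists_min_idem.choose_spec.1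

lemma e0_min (x : Bt) : ∃ z, z * (x * e0) = e0 := exists_min_idem.choose_spec.2 x

abbrev GG : Type := {x : Bt // e0 * x = x ∧ x * e0 = x}

noncomputable def sand (x : Bt) : GG :=
  ⟨e0 * x * e0, by rw [← mul_assoc, ← mul_assoc, e0_idem], by rw [mul_assoc, e0_idem]⟩

noncomputable instance : Mul GG :=
  ⟨fun x y => ⟨x.1 * y.1, by rw [← mul_assoc, x.2.1], by rw [mul_assoc, y.2.2]⟩⟩

noncomputable instance : One GG := ⟨⟨e0, e0_idem, e0_idem⟩⟩

noncomputable instance : Inv GG := ⟨fun x => sand (e0_min x.1).choose⟩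

lemma GG.mul_val (x y : GG) : (x * y).1 = x.1 * y.1 := rfl

lemma GG.one_val : (1 : GG).1 = e0 := rfl

noncomputable instance : Group GG :=
  Group.ofLeftAxioms (fun x y z => Subtype.ext (mul_assoc x.1 y.1 z.1))
    (fun x => Subtype.ext x.2.1) (fun x => Subtype.ext (by
      have h := (e0_min x.1).choose_spec
      change e0 * (e0_min x.1).choose * e0 * x.1 = e0
      generalize (e0_min x.1).choose = z at h ⊢
      rw [x.2.2] at h
      rw [mul_assoc, x.2.1, mul_assoc, h, e0_idem]))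

lemma sand_val (x : GG) : sand x.1 = x := Subtype.ext (by
  change e0 * x.1 * e0 = x.1
  rw [x.2.1, x.2.2])

variable {K : Type} {d : ℕ}

noncomputable def rowM (x : Fin d → ℝ) (W : List (V d)) : Wd := FreeMonoid.ofList (W.map (ev x))

lemma rowM_append (x : Fin d → ℝ) (W W' : List (V d)) :
    rowM x (W ++ W') = rowM x W * rowM x W' := by
  simp [rowM, FreeMonoid.ofList_append]

def RB (a : K → Fin d → ℝ) (g : K → Bt) (Q : K → K → ℝ) (ε : ℚ) : Prop :=
  ∀ C : K → Set Wd, (∀ i, C i ∈ g i) → ∃ W : List (V d), ∃ δ : ℚ, 0 ≤ δ ∧ δ ≤ ε ∧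
    EL a W = Q + (δ : ℝ) • Dm a ∧ ∀ i, rowM (a i) W ∈ C i

variable {a : K → Fin d → ℝ}

lemma RB.mul {g h : K → Bt} {Q Q' ε ε'} (h1 : RB a g Q ε) (h2 : RB a h Q' ε') :
    RB a (g * h) (Q + Q') (ε + ε') := by
  intro C hC
  obtain ⟨W, δ, k1, k2, k3, k4⟩ := h1 _ fun i => (mem_mul_iff _ _ _).1 (hC i)
  obtain ⟨W', δ', l1, l2, l3, l4⟩ := h2 _ k4
  refine ⟨W ++ W', δ + δ', by linarith, by linarith, ?_, fun i => ?_⟩
  · rw [EL_append, k3, l3]; push_cast; rw [add_smul]; abel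
  · rw [rowM_append]; exact l4 i

lemma RB.diag [Finite K] (x : Bt) : RB a (fun _ => x) 0 0 := by
  intro C hC
  have : (⋂ i, C i) ∈ x := (Filter.iInter_mem (f := (x : Filter Wd))).2 hC
  obtain ⟨w, hw⟩ := Ultrafilter.nonempty_of_mem this
  refine ⟨(FreeMonoid.toList w).map cst, 0, le_rfl, le_rfl, ?_, fun i => ?_⟩
  · simp only [Rat.cast_zero, zero_smul, add_zero]
    induction FreeMonoid.toList w with
    | nil => rfl
    | cons s l ih => simp [ih, En_cst]
  · have : rowM (a i) ((FreeMonoid.toList w).map cst) = w := by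
      simp only [rowM, List.map_map]
      have : (ev (a i)) ∘ (cst : ℝ → V d) = id := funext fun s => ev_cst _ _
      rw [this, List.map_id, FreeMonoid.ofList_toList]
    rw [this]
    exact Set.mem_iInter.1 hw i

lemma RB.pure (W : List (V d)) : RB a (fun i => pure (rowM (a i) W)) (EL a W) 0 :=
  fun _ hC => ⟨W, 0, le_rfl, le_rfl, by simp, fun i => Ultrafilter.mem_pure.1 (hC i)⟩

lemma RB.shift {g : K → Bt} {ε t : ℚ} (ht : 0 ≤ t) (h : RB a g ((t : ℝ) • Dm a) ε) :
    RB a g 0 (t + ε) := by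
  intro C hC
  obtain ⟨W, δ, k1, k2, k3, k4⟩ := h C hC
  refine ⟨W, t + δ, by linarith, by linarith, ?_, k4⟩
  rw [k3]; push_cast; rw [add_smul, zero_add]

lemma RB.mono {g : K → Bt} {Q ε ε'} (hε : ε ≤ ε') (h : RB a g Q ε) : RB a g Q ε' := by
  intro C hC
  obtain ⟨W, δ, k1, k2, k3, k4⟩ := h C hC
  exact ⟨W, δ, k1, k2.trans hε, k3, k4⟩

lemma RB.closed [Finite K] (Q : K → K → ℝ) (ε : ℚ) : IsClosed {g : K → Bt | RB a g Q ε} := by
  unfold RB
  rw [Set.setOf_forall]
  refine isClosed_iInter fun C => ?_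
  by_cases hP : ∃ W : List (V d), ∃ δ : ℚ, 0 ≤ δ ∧ δ ≤ ε ∧
    EL a W = Q + (δ : ℝ) • Dm a ∧ ∀ i, rowM (a i) W ∈ C i
  · simp [hP]
  · have : IsOpen {g : K → Bt | ∀ i, C i ∈ g i} := by
      rw [Set.setOf_forall]
      exact isOpen_iInter_of_finite fun i =>
        (ultrafilter_isOpen_basic (C i)).preimage (continuous_apply (A := fun _ : K => Bt) i)
    convert this.isClosed_compl using 1
    ext g
    simp [hP]

lemma RB.sandw [Finite K] {g : K → Bt} {Q ε} (h : RB a g Q ε) :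
    RB a (fun i => (sand (g i)).1) Q ε := by
  have := ((RB.diag (a := a) e0).mul h).mul (RB.diag e0)
  simp only [zero_add, add_zero] at this
  exact this

lemma RB.bind [Finite K] {ι : Type} (U : Ultrafilter ι) (x : ι → K → Bt) {Q ε}
    (h : ∀ᶠ n in U, RB a (x n) Q ε) : RB a (fun i => U.bind fun n => x n i) Q ε := by
  intro C hC
  have h2 : ∀ᶠ n in U, ∀ i, C i ∈ x n i := Filter.eventually_all.2 fun i => hC i
  obtain ⟨n, h3, h4⟩ := (h.and h2).exists
  exact h3 C h4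

lemma RB.inv [Finite K] {g : K → GG} (hg : ∀ ε, 0 < ε → RB a (fun i => (g i).1) 0 ε) :
    ∀ ε, 0 < ε → RB a (fun i => (g⁻¹ i).1) 0 ε := by
  let Sg : Set (K → Bt) := {x | ∀ ε, 0 < ε → RB a x 0 ε}
  have hcl : IsClosed Sg := by
    simp only [Sg, Set.setOf_forall]
    exact isClosed_iInter fun ε => isClosed_iInter fun _ => RB.closed 0 ε
  have hmul : ∀ x ∈ Sg, ∀ y ∈ Sg, x * y ∈ Sg := by
    intro x hx y hy ε hε
    have := (hx (ε / 2) (half_pos hε)).mul (hy (ε / 2) (half_pos hε))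
    rwa [add_halves, add_zero] at this
  have hcont : ∀ r : K → Bt, Continuous (· * r) := fun r =>
    continuous_pi fun i => (Ultrafilter.continuous_mul_left (r i)).comp (continuous_apply i)
  obtain ⟨f, ⟨x, hx, rfl⟩, hf⟩ := exists_idempotent_in_compact_subsemigroup hcont
    ((· * fun i => (g i).1) '' Sg) ⟨_, _, hg, rfl⟩ (hcl.isCompact.image (hcont _)) (by
      rintro _ ⟨x, hx, rfl⟩ _ ⟨y, hy, rfl⟩
      exact ⟨x * (fun i => (g i).1) * y, hmul _ (hmul _ hx _ hg) _ hy, by simp only [mul_assoc]⟩)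
  have key : ∀ i, g⁻¹ i = sand (x i) := by
    intro i
    have h1 : x i * (g i).1 * (x i * (g i).1) = x i * (g i).1 := congrFun hf i
    have h2 : (sand (x i) * g i) * (sand (x i) * g i) = sand (x i) * g i := by
      apply Subtype.ext
      change e0 * x i * e0 * (g i).1 * (e0 * x i * e0 * (g i).1) = e0 * x i * e0 * (g i).1
      rw [mul_assoc (e0 * x i) e0, (g i).2.1]
      calc e0 * x i * (g i).1 * (e0 * x i * (g i).1)
          = e0 * (x i * ((g i).1 * e0) * (x i * (g i).1)) := by simp only [mul_assoc]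
        _ = e0 * x i * (g i).1 := by rw [(g i).2.2, h1, mul_assoc]
    have h3 : sand (x i) * g i = 1 := by simpa using h2
    exact (eq_inv_of_mul_eq_one_left h3).symm
  intro ε hε
  simp only [key]
  exact (hx ε hε).sandw

lemma ev_hyper {p : ℕ → Prop} (h : ∀ᶠ n in atTop, p n) : ∀ᶠ n in hyperfilter ℕ, p n := by
  rw [← Nat.cofinite_eq_atTop] at h
  exact hyperfilter_le_cofinite h

lemma RB.lim1 [Finite K] (J : Finset K) (g : K → GG)
    (h : ∀ ε, 0 < ε → ∃ x : K → GG, (∀ i ∈ J, x i = g i) ∧ RB a (fun i => (x i).1) 0 ε) :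
    ∃ x : K → GG, (∀ ε, 0 < ε → RB a (fun i => (x i).1) 0 ε) ∧ ∀ i ∈ J, x i = g i := by
  choose x h1 h2 using fun n : ℕ => h (1 / (n + 1)) (by positivity)
  refine ⟨fun i => sand ((hyperfilter ℕ).bind fun n => (x n i).1), fun ε hε => ?_, fun i hi => ?_⟩
  · refine RB.sandw (RB.bind (hyperfilter ℕ) (fun n i => (x n i).1) (ev_hyper ?_))
    obtain ⟨N, hN⟩ := exists_nat_ge (1 / ε)
    filter_upwards [eventually_ge_atTop N] with n hn
    refine (h2 n).mono ?_
    rw [div_le_iff₀ hε] at hN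
    rw [div_le_iff₀ (by positivity)]
    have h2' : (N : ℚ) ≤ n := by exact_mod_cast hn
    nlinarith
  · have : ((hyperfilter ℕ).bind fun n => (x n i).1) = (g i).1 := by
      simp only [h1 _ i hi]
      ext C
      exact Filter.eventually_const (f := (hyperfilter ℕ : Filter ℕ)) (p := C ∈ (g i).1)
    simp only [this, sand_val]

lemma RB.lim2 [Finite K] (J : Finset K) (s s0 : ℚ) (Y : ℕ → K → GG) (hs0 : 0 < s0)
    (hY : ∀ ε, 0 < ε → ∀ᶠ n in atTop, RB a (fun i => (Y n i).1) 0 ε)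
    (hz : ∀ δ : ℚ, 0 ≤ δ → δ ≤ s0 → ∀ ε, 0 < ε → ∀ᶠ n in atTop,
      ∃ z : K → GG, RB a (fun i => (z i).1) (((s - δ : ℚ) : ℝ) • Dm a) 0 ∧
        RB a (fun i => (z i).1) 0 ε ∧ ∀ i ∈ J, z i = Y n i)
    (v0 : K → GG) (hv0 : ∀ ε, 0 < ε → RB a (fun i => (v0 i).1) 0 ε) :
    ∃ g : K → GG, (∀ ε, 0 < ε → RB a (fun i => (g i).1) 0 ε) ∧
      RB a (fun i => (g i).1) ((s : ℝ) • Dm a) 0 ∧ ∀ i ∈ J, g i = v0 i := by
  classical
  let y : K → Bt := fun i => (hyperfilter ℕ).bind fun n => (Y n i).1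
  have hy : ∀ ε, 0 < ε → RB a y 0 ε := fun ε hε =>
    RB.bind (hyperfilter ℕ) (fun n i => (Y n i).1) (ev_hyper (hY ε hε))
  let yh : K → GG := fun i => sand (y i)
  have hyh : ∀ ε, 0 < ε → RB a (fun i => (yh⁻¹ i).1) 0 ε := RB.inv fun ε hε => (hy ε hε).sandw
  let v : K → GG := v0 * yh⁻¹
  have hv : ∀ ε, 0 < ε → RB a (fun i => (v i).1) 0 ε := by
    intro ε hε
    have := (hv0 (ε / 2) (half_pos hε)).mul (hyh (ε / 2) (half_pos hε))
    rw [add_halves, add_zero] at this
    exact this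
  let ι := {p : ℚ × (K → Set Wd) // 0 < p.1 ∧ ∀ i, p.2 i ∈ (v i).1 * y i}
  haveI : Nonempty ι := ⟨⟨(1, fun _ => Set.univ), one_pos, fun _ => Filter.univ_mem⟩⟩
  let F : ι → Set (K → Bt) := fun p =>
    {g | RB a g ((s : ℝ) • Dm a) 0} ∩ ({g | RB a g 0 p.1.1} ∩ ⋂ i ∈ J, {g | p.1.2 i ∈ g i})
  have hcl : ∀ p, IsClosed (F p) := fun p =>
    (RB.closed _ _).inter ((RB.closed _ _).inter (isClosed_biInter fun i _ =>
      (ultrafilter_isClosed_basic (p.1.2 i)).preimage
        (continuous_apply (A := fun _ : K => Bt) i)))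
  have hdir : Directed (· ⊇ ·) F := by
    intro p q
    refine ⟨⟨(min p.1.1 q.1.1, fun i => p.1.2 i ∩ q.1.2 i), lt_min p.2.1 q.2.1,
      fun i => Filter.inter_mem (p.2.2 i) (q.2.2 i)⟩, ?_, ?_⟩
    · rintro g ⟨h1, h2, h3⟩
      refine ⟨h1, RB.mono (min_le_left _ _) h2, ?_⟩
      simp only [Set.mem_iInter, Set.mem_setOf_eq] at h3 ⊢
      exact fun i hi => Filter.mem_of_superset (h3 i hi) Set.inter_subset_left
    · rintro g ⟨h1, h2, h3⟩
      refine ⟨h1, RB.mono (min_le_right _ _) h2, ?_⟩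
      simp only [Set.mem_iInter, Set.mem_setOf_eq] at h3 ⊢
      exact fun i hi => Filter.mem_of_superset (h3 i hi) Set.inter_subset_right
  have hne : ∀ p, (F p).Nonempty := by
    rintro ⟨⟨ε, C⟩, hε, hC⟩
    simp only at hε hC
    have hε' : 0 < min (ε / 2) s0 := lt_min (half_pos hε) hs0
    obtain ⟨W, δ, k1, k2, k3, k4⟩ := hv _ hε' _ fun i => (mem_mul_iff _ _ _).1 (hC i)
    have h2 : ∀ᶠ n in hyperfilter ℕ, ∀ i, {t | rowM (a i) W * t ∈ C i} ∈ (Y n i).1 :=
      Filter.eventually_all.2 fun i => k4 i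
    obtain ⟨n, h3, z, l1, l2, l3⟩ :=
      (h2.and (ev_hyper (hz δ k1 (k2.trans (min_le_right _ _)) _ (half_pos hε)))).exists
    rw [zero_add] at k3
    refine ⟨(fun i => Pure.pure (rowM (a i) W)) * fun i => (z i).1, ?_, ?_, ?_⟩
    · have := (RB.pure W).mul l1
      rw [k3, ← add_smul, add_zero] at this
      have e : ((δ : ℝ) + ((s - δ : ℚ) : ℝ)) = s := by push_cast; ring
      rw [e] at this
      exact this
    · have := (RB.pure W).mul l2
      rw [k3, add_zero, zero_add] at this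
      refine (this.shift k1).mono ?_
      have := k2.trans (min_le_left _ _)
      simp only
      linarith
    · simp only [Set.mem_iInter, Set.mem_setOf_eq]
      intro i hi
      rw [Pi.mul_apply, mem_mul_iff, Ultrafilter.mem_pure, Set.mem_setOf_eq, l3 i hi]
      exact h3 i
  obtain ⟨g, hg⟩ := IsCompact.nonempty_iInter_of_directed_nonempty_isCompact_isClosed F hdir hne
    (fun p => (hcl p).isCompact) hcl
  rw [Set.mem_iInter] at hg
  refine ⟨fun i => sand (g i), fun ε hε => ?_, ?_, fun i hi => ?_⟩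
  · exact RB.sandw (hg ⟨(ε, fun _ => Set.univ), hε, fun _ => Filter.univ_mem⟩).2.1
  · exact RB.sandw (hg (Classical.arbitrary ι)).1
  · have h1 : g i = (v i).1 * y i := by
      apply Ultrafilter.eq_of_le
      intro C hC
      have := (hg ⟨(1, fun l => if l = i then C else Set.univ), one_pos, fun l => by
        by_cases hl : l = i
        · subst hl; simpa using hC
        · simp only [hl, if_false]; exact Filter.univ_mem⟩).2.2
      simp only [Set.mem_iInter, Set.mem_setOf_eq] at this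
      simpa using this i hi
    apply Subtype.ext
    have h2 : v0 i = v i * yh i := by simp [v]
    rw [h2]
    change e0 * g i * e0 = (v i).1 * (e0 * y i * e0)
    rw [h1, ← mul_assoc e0, (v i).2.1, ← mul_assoc, ← mul_assoc, (v i).2.2]

noncomputable def sys [Finite K] (a : K → Fin d → ℝ) : Sys a GG where
  Rl g Q ε := RB a (fun i => (g i).1) Q ε
  rho s := sand (pure (FreeMonoid.of s))
  mul h1 h2 := h1.mul h2
  diag x := RB.diag x.1
  gen f := by
    have := (RB.pure (a := a) [f]).sandw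
    simp only [EL_cons, EL_nil, add_zero] at this
    exact this
  shift ht h := h.shift ht
  mono hε h := h.mono hε
  inv hg := RB.inv hg
  lim1 := RB.lim1
  lim2 := RB.lim2

theorem mono_rows [Fintype K] [DecidableEq K] (ha : Function.Injective a)
    (hP : PairP a (Fintype.card K)) {r : ℕ} (χ : List ℝ → Fin r) :
    ∃ W : List (V d), EL a W = Dm a ∧ ∃ k, ∀ i, χ (W.map (ev (a i))) = k := by
  have h := (sys a).final ha hP
  obtain ⟨k, hk⟩ : ∃ k, {w : Wd | χ (FreeMonoid.toList w) = k} ∈ e0 := by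
    have : (⋃ k ∈ (Set.univ : Set (Fin r)), {w : Wd | χ (FreeMonoid.toList w) = k}) ∈ e0 := by
      have : (⋃ k ∈ (Set.univ : Set (Fin r)), {w : Wd | χ (FreeMonoid.toList w) = k}) =
          Set.univ := by
        ext w; simp
      rw [this]; exact Filter.univ_mem
    obtain ⟨k, -, hk⟩ := (Ultrafilter.finite_biUnion_mem_iff Set.finite_univ).1 this
    exact ⟨k, hk⟩
  obtain ⟨W, δ, k1, k2, k3, k4⟩ := h (fun _ => _) (fun _ => hk)
  have : δ = 0 := le_antisymm k2 k1
  subst this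
  exact ⟨W, by simpa using k3, k, fun i => k4 i⟩

end Vale.Agent.P058
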