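import Vale.Agent.P058.StepA
import Vale.Agent.P058.Nilp
import Vale.Agent.P058.Ultra

namespace Vale.Agent.P058

variable {K : Type} {d : ℕ}

lemma dist_eq_iff {D : ℕ} (x y : EuclideanSpace ℝ (Fin D)) (z w : EuclideanSpace ℝ (Fin d)) :
    dist x y = dist z w ↔ ∑ k, (x.ofLp k - y.ofLp k) ^ 2 = ∑ k, (z.ofLp k - w.ofLp k) ^ 2 := by
  rw [EuclideanSpace.dist_eq, EuclideanSpace.dist_eq]
  simp only [Real.dist_eq, sq_abs]
  exact Real.sqrt_inj (Finset.sum_nonneg fun _ _ => sq_nonneg _)
    (Finset.sum_nonneg fun _ _ => sq_nonneg _)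

lemma sum_getD (a : K → Fin d → ℝ) (i l : K) (W : List (V d)) (n : ℕ) (hn : W.length ≤ n) :
    ∑ k : Fin n, ((W.map (ev (a i))).getD k 0 - (W.map (ev (a l))).getD k 0) ^ 2 = EL a W i l := by
  induction W generalizing n with
  | nil => simp
  | cons f W ih =>
    obtain ⟨n, rfl⟩ : ∃ m, n = m + 1 := ⟨n - 1, by simp at hn; omega⟩
    rw [Fin.sum_univ_succ, EL_cons, Pi.add_apply, Pi.add_apply, ← ih n (by simpa using hn)]
    simp [En]

/-- the points of a finite set as a family -/
def pts (A : Finset (EuclideanSpace ℝ (Fin d))) : A → Fin d → ℝ := fun x => x.1.ofLp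

lemma pts_inj (A : Finset (EuclideanSpace ℝ (Fin d))) : Function.Injective (pts A) :=
  fun _ _ h => Subtype.ext (WithLp.ofLp_injective 2 h)

lemma crit_iff (A : Finset (EuclideanSpace ℝ (Fin d))) : TensorCriterion A ↔ CritK (pts A) := by
  constructor
  · rintro ⟨P, h1, h2⟩
    exact ⟨P, fun i => h1 i.1 i.2, funext fun α => funext fun β => h2 α β⟩
  · rintro ⟨P, h1, h2⟩
    exact ⟨P, fun x hx => h1 ⟨x, hx⟩, fun α β => congrFun (congrFun h2 α) β⟩

theorem ramsey_of_crit (A : Finset (EuclideanSpace ℝ (Fin d))) (h : CritK (pts A)) :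
    IsRamsey A := by
  classical
  intro r _
  by_contra hcon
  push Not at hcon
  choose c hc using fun D : ℕ => hcon (D + 1) (by omega)
  obtain ⟨W, h1, k, h2⟩ := mono_rows (pts_inj A)
    (((h.ap.all _).pair (pts_inj A)).all _)
    (fun l => c l.length (WithLp.toLp 2 fun k : Fin (l.length + 1) => l.getD k 0))
  have key : ∀ (l : List ℝ) (n : ℕ), l.length = n →
      c l.length (WithLp.toLp 2 fun k : Fin (l.length + 1) => l.getD k 0) =
      c n (WithLp.toLp 2 fun k : Fin (n + 1) => l.getD k 0) := by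
    rintro l n rfl; rfl
  obtain ⟨x, hx⟩ := hc W.length
    (fun i => WithLp.toLp 2 fun k : Fin (W.length + 1) => (W.map (ev (pts A i))).getD k 0) (by
      intro i l
      rw [dist_eq_iff]
      simp only
      rw [sum_getD _ _ _ _ _ (by omega), h1]
      rfl) k
  exact hx ((key _ _ (List.length_map _)).symm.trans (h2 x))

end Vale.Agent.P058
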