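import Vale.Agent.P058.Basic

namespace Vale.Agent.P058

open Filter

variable {K : Type} {d : ℕ}

/-- abstract interface extracted from the ultrafilter construction -/
structure Sys (a : K → Fin d → ℝ) (G : Type) [Group G] where
  Rl : (K → G) → (K → K → ℝ) → ℚ → Prop
  rho : ℝ → G
  mul : ∀ {g h Q Q' ε ε'}, Rl g Q ε → Rl h Q' ε' → Rl (g * h) (Q + Q') (ε + ε')
  diag : ∀ x, Rl (fun _ => x) 0 0
  gen : ∀ f, Rl (fun i => rho (ev (a i) f)) (En a f) 0
  shift : ∀ {g ε} {t : ℚ}, 0 ≤ t → Rl g ((t : ℝ) • Dm a) ε → Rl g 0 (t + ε)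
  mono : ∀ {g Q ε ε'}, ε ≤ ε' → Rl g Q ε → Rl g Q ε'
  inv : ∀ {g}, (∀ ε, 0 < ε → Rl g 0 ε) → ∀ ε, 0 < ε → Rl g⁻¹ 0 ε
  lim1 : ∀ (J : Finset K) (g : K → G), (∀ ε, 0 < ε → ∃ x, (∀ i ∈ J, x i = g i) ∧ Rl x 0 ε) →
    ∃ x, (∀ ε, 0 < ε → Rl x 0 ε) ∧ ∀ i ∈ J, x i = g i
  lim2 : ∀ (J : Finset K) (s s0 : ℚ) (Y : ℕ → K → G), 0 < s0 →
    (∀ ε, 0 < ε → ∀ᶠ n in atTop, Rl (Y n) 0 ε) →
    (∀ δ : ℚ, 0 ≤ δ → δ ≤ s0 → ∀ ε, 0 < ε → ∀ᶠ n in atTop,
      ∃ z, Rl z (((s - δ : ℚ) : ℝ) • Dm a) 0 ∧ Rl z 0 ε ∧ ∀ i ∈ J, z i = Y n i) →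
    ∀ v, (∀ ε, 0 < ε → Rl v 0 ε) →
      ∃ g, (∀ ε, 0 < ε → Rl g 0 ε) ∧ Rl g ((s : ℝ) • Dm a) 0 ∧ ∀ i ∈ J, g i = v i

/-- the row of a list of functionals, in the free group -/
noncomputable def rowF (x : Fin d → ℝ) (W : List (V d)) : FreeGroup ℝ :=
  (W.map fun f => FreeGroup.of (ev x f)).prod

@[simp] lemma rowF_nil (x : Fin d → ℝ) : rowF x [] = 1 := rfl
@[simp] lemma rowF_cons (x : Fin d → ℝ) (f : V d) (W : List (V d)) :
    rowF x (f :: W) = FreeGroup.of (ev x f) * rowF x W := by simp [rowF]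
@[simp] lemma rowF_append (x : Fin d → ℝ) (W W' : List (V d)) :
    rowF x (W ++ W') = rowF x W * rowF x W' := by simp [rowF]

abbrev lcs (n : ℕ) : Subgroup (FreeGroup ℝ) := (⊤ : Subgroup (FreeGroup ℝ)).lowerCentralSeries n

/-- the output of the algebraic part -/
def PairP (a : K → Fin d → ℝ) (n : ℕ) : Prop :=
  ∀ ε : ℝ, 0 < ε → ∃ (U W : List (V d)) (c : ℝ), 0 < c ∧
    (∀ i, (rowF (a i) W)⁻¹ * rowF (a i) U ∈ lcs n) ∧
    EL a U = EL a W + c • Dm a ∧ tauL W ≤ ε * c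

namespace Sys

variable {a : K → Fin d → ℝ} {G : Type} [Group G] (S : Sys a G)

def Ex (g : K → G) (Q : K → K → ℝ) : Prop := S.Rl g Q 0

lemma Ex.mul {S : Sys a G} {g h : K → G} {Q Q'} (h1 : S.Ex g Q) (h2 : S.Ex h Q') :
    S.Ex (g * h) (Q + Q') := by
  have := S.mul h1 h2
  rwa [add_zero] at this

lemma ex_diag (x : G) : S.Ex (fun _ => x) 0 := S.diag x

lemma ex_one : S.Ex 1 0 := S.diag 1

lemma Ex.congr {S : Sys a G} {g g' : K → G} {Q Q'} (h1 : S.Ex g Q) (hg : g = g') (hQ : Q = Q') :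
    S.Ex g' Q' := hg ▸ hQ ▸ h1

/-- exact energy `t D` -/
def Et (g : K → G) (t : ℚ) : Prop := S.Ex g ((t : ℝ) • Dm a)

lemma Et.mul {S : Sys a G} {g h : K → G} {t t'} (h1 : S.Et g t) (h2 : S.Et h t') :
    S.Et (g * h) (t + t') := (Ex.mul h1 h2).congr rfl (by push_cast; rw [add_smul])

lemma et_diag (x : G) : S.Et (fun _ => x) 0 := (S.ex_diag x).congr rfl (by simp)

lemma et_one : S.Et 1 0 := S.et_diag 1

lemma Et.congr {S : Sys a G} {g g' : K → G} {t t'} (h1 : S.Et g t) (hg : g = g') (ht : t = t') :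
    S.Et g' t' := hg ▸ ht ▸ h1

lemma Et.pow {S : Sys a G} {g : K → G} {t} (h1 : S.Et g t) (n : ℕ) : S.Et (g ^ n) (n * t) := by
  induction n with
  | zero => simpa using S.et_one
  | succ n ih => exact (ih.mul h1).congr (pow_succ g n).symm (by push_cast; ring)

lemma Et.conj {S : Sys a G} {g : K → G} {t} (h1 : S.Et g t) (x : G) :
    S.Et (fun i => x⁻¹ * g i * x) t :=
  (((S.et_diag x⁻¹).mul h1).mul (S.et_diag x)).congr rfl (by ring)

lemma Et.small {S : Sys a G} {g : K → G} {t} (h1 : S.Et g t) (ht : 0 ≤ t) : S.Rl g 0 t := by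
  have := S.shift ht h1
  rwa [add_zero] at this

lemma rl_mul0 {g h : K → G} {ε ε'} (h1 : S.Rl g 0 ε) (h2 : S.Rl h 0 ε') :
    S.Rl (g * h) 0 (ε + ε') := by
  have := S.mul h1 h2
  rwa [add_zero] at this

lemma rl_pow0 {g : K → G} {ε} (h1 : S.Rl g 0 ε) (n : ℕ) : S.Rl (g ^ n) 0 (n * ε) := by
  induction n with
  | zero => rw [pow_zero, Nat.cast_zero, zero_mul]; exact S.diag 1
  | succ n ih =>
    have := S.rl_mul0 ih h1
    rw [← pow_succ] at this
    exact S.mono (by push_cast; linarith) this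

/-- elements of approximately zero energy -/
def G0 : Subgroup (K → G) where
  carrier := {g | ∀ ε, 0 < ε → S.Rl g 0 ε}
  mul_mem' := by
    intro g h hg hh ε hε
    have := S.rl_mul0 (hg (ε / 2) (by linarith)) (hh (ε / 2) (by linarith))
    rwa [add_halves] at this
  one_mem' := fun ε hε => S.mono hε.le (S.diag 1)
  inv_mem' := fun hg => S.inv hg

lemma diag_mem (x : G) : (fun _ => x) ∈ S.G0 := fun _ hε => S.mono hε.le (S.diag x)

/-- two-loops -/
lemma loop (i j : K) {Q} (hQ : Q ∈ Cone a) : ∃ w, S.Ex w Q ∧ w i = 1 ∧ w j = 1 := by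
  induction hQ using AddSubmonoid.closure_induction with
  | mem Q hQ =>
    obtain ⟨m, rfl⟩ := hQ
    set f : V d := (√2)⁻¹ • m with hf
    set α := ev (a i) f with hα
    set β := ev (a j) f with hβ
    set f' : V d := cst (α + β) + -f with hf'
    have h1 := ((Ex.mul (S.gen f) (S.ex_diag (S.rho β)⁻¹)).mul (S.gen f')).mul
      (S.ex_diag (S.rho α)⁻¹)
    refine ⟨_, h1.congr rfl ?_, ?_, ?_⟩
    · rw [hf', En_cst_add, En_neg, hf, En_smul, inv_pow, Real.sq_sqrt (by norm_num)]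
      funext x y
      simp only [Pi.add_apply, Pi.smul_apply, smul_eq_mul, Pi.zero_apply]
      ring
    · have : ev (a i) f' = β := by simp [hf', ← hα]
      simp [this, ← hα]
    · have : ev (a j) f' = α := by simp [hf', ← hβ]
      simp [this, ← hβ]
  | zero => exact ⟨1, S.ex_one, rfl, rfl⟩
  | add Q Q' _ _ ih ih' =>
    obtain ⟨w, h1, h2, h3⟩ := ih
    obtain ⟨w', h1', h2', h3'⟩ := ih'
    exact ⟨w * w', h1.mul h1', by simp [h2, h2'], by simp [h3, h3']⟩

lemma steps (i j : K) (g0 : V d) (hi : ev (a i) g0 = 1) (hj : ev (a j) g0 = 0) (t h : ℝ) (n : ℕ) :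
    ∃ x, S.Ex x ((n : ℝ) • En a (h • g0)) ∧ x i = S.rho (t + n * h) * (S.rho t)⁻¹ ∧ x j = 1 := by
  induction n with
  | zero => exact ⟨1, S.ex_one.congr rfl (by simp), by simp, rfl⟩
  | succ n ih =>
    obtain ⟨x, h1, h2, h3⟩ := ih
    set f : V d := cst (t + n * h) + h • g0 with hf
    have h4 := (Ex.mul (S.gen f) (S.ex_diag (S.rho (t + n * h))⁻¹)).mul h1
    refine ⟨_, h4.congr rfl ?_, ?_, ?_⟩
    · rw [hf, En_cst_add]
      push_cast
      rw [add_smul, one_smul, add_zero, add_comm]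
    · have : ev (a i) f = t + ((n + 1 : ℕ) : ℝ) * h := by
        simp only [hf, map_add, ev_cst, map_smul, hi, smul_eq_mul]; push_cast; ring
      simp only [Pi.mul_apply, this, h2]
      group
    · have : ev (a j) f = t + n * h := by
        simp only [hf, map_add, ev_cst, map_smul, hj, smul_eq_mul]; ring
      simp [this, h3]

/-- cheap elements -/
def Ch (i j : K) (g : G) : Prop := ∀ ε : ℚ, 0 < ε → ∃ x, S.Et x ε ∧ x i = g ∧ x j = 1

lemma ch_rho {i j : K} (hij : a i ≠ a j) (s t : ℝ) : S.Ch i j (S.rho s * (S.rho t)⁻¹) := by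
  intro ε hε
  obtain ⟨g0, hi, hj⟩ := exists_sep hij
  have hε' : (0 : ℝ) < ε := by exact_mod_cast hε
  obtain ⟨N, hN⟩ := exists_nat_gt ((s - t) ^ 2 * tau g0 / ε)
  have hN0 : (0 : ℝ) < N := lt_of_le_of_lt (div_nonneg (mul_nonneg (sq_nonneg _) (tau_nonneg _)) hε'.le) hN
  obtain ⟨x, h1, h2, h3⟩ := S.steps i j g0 hi hj t ((s - t) / N) N
  have hE : (N : ℝ) • En a (((s - t) / N) • g0) = EL a [√N • ((s - t) / N) • g0] := by
    simp only [EL_cons, EL_nil, add_zero]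
    rw [En_smul a (√N), Real.sq_sqrt hN0.le]
  have hτ : tauL [√N • ((s - t) / N) • g0] ≤ ε := by
    simp only [tauL_cons, tauL_nil, add_zero, tau_smul]
    rw [Real.sq_sqrt hN0.le]
    rw [div_lt_iff₀ hε'] at hN
    have : (N : ℝ) * (((s - t) / N) ^ 2 * tau g0) = (s - t) ^ 2 * tau g0 / N := by
      field_simp
    rw [this, div_le_iff₀ hN0]
    linarith
  obtain ⟨w, k1, k2, k3⟩ := S.loop i j (coneL a _ hτ)
  refine ⟨x * w, (h1.mul k1).congr rfl ?_, ?_, ?_⟩
  · rw [hE]; abel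
  · have : t + N * ((s - t) / N) = s := by field_simp; ring
    simp [h2, k2, this]
  · simp [h3, k3]

noncomputable def phi : FreeGroup ℝ →* G := FreeGroup.lift fun s => S.rho s * (S.rho 0)⁻¹

lemma ch_phi {i j : K} (hij : a i ≠ a j) (x : FreeGroup ℝ) : S.Ch i j (S.phi x) := by
  induction x using FreeGroup.induction_on with
  | C1 =>
    have := S.ch_rho hij 0 0
    simpa using this
  | of s =>
    have := S.ch_rho hij s 0
    simpa [phi] using this
  | inv_of s _ =>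
    have := S.ch_rho hij 0 s
    simpa [phi] using this
  | mul x y hx hy =>
    intro ε hε
    obtain ⟨u, h1, h2, h3⟩ := hx (ε / 2) (by linarith)
    obtain ⟨w, k1, k2, k3⟩ := hy (ε / 2) (by linarith)
    exact ⟨u * w, (h1.mul k1).congr rfl (by ring), by simp [h2, k2], by simp [h3, k3]⟩

lemma ex_rows (W : List (V d)) : S.Ex (fun i => S.phi (rowF (a i) W)) (EL a W) := by
  induction W with
  | nil => simpa using S.ex_diag 1
  | cons f W ih =>
    refine ((Ex.mul (S.gen f) (S.ex_diag (S.rho 0)⁻¹)).mul ih).congr ?_ (by simp)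
    funext i
    simp [phi]

lemma g0_two [DecidableEq K] {i j : K} (hij : a i ≠ a j) (x : FreeGroup ℝ) :
    ∃ X ∈ S.G0, X i = S.phi x ∧ X j = 1 := by
  have hne : i ≠ j := fun h => hij (h ▸ rfl)
  obtain ⟨X, h1, h2⟩ := S.lim1 {i, j} (Pi.mulSingle i (S.phi x)) (by
    intro ε hε
    obtain ⟨u, k1, k2, k3⟩ := S.ch_phi hij x ε hε
    refine ⟨u, ?_, k1.small hε.le⟩
    intro l hl
    simp only [Finset.mem_insert, Finset.mem_singleton] at hl
    rcases hl with rfl | rfl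
    · simp [k2]
    · simp [k3, hne.symm])
  refine ⟨X, h1, ?_, ?_⟩
  · rw [h2 i (by simp)]; simp
  · rw [h2 j (by simp)]; simp [hne.symm]

lemma g0_rows [DecidableEq K] (ha : Function.Injective a) (i : K) (T : Finset K) (hi : i ∉ T) :
    ∀ x ∈ lcs T.card,
      ∃ X ∈ S.G0, X i = S.phi x ∧ ∀ l ∈ T, X l = 1 := by
  induction T using Finset.induction_on with
  | empty => exact fun x _ => ⟨fun _ => S.phi x, S.diag_mem _, rfl, by simp⟩
  | insert j T hj ih =>
    have hij : i ≠ j := fun h => hi (h ▸ Finset.mem_insert_self _ _)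
    have hiT : i ∉ T := fun h => hi (Finset.mem_insert_of_mem h)
    let H : Subgroup (FreeGroup ℝ) :=
      { carrier := {x | ∃ X ∈ S.G0, X i = S.phi x ∧ ∀ l ∈ insert j T, X l = 1}
        mul_mem' := by
          rintro x y ⟨X, h1, h2, h3⟩ ⟨Y, k1, k2, k3⟩
          exact ⟨X * Y, mul_mem h1 k1, by simp [h2, k2], fun l hl => by simp [h3 l hl, k3 l hl]⟩
        one_mem' := ⟨1, one_mem _, by simp, fun _ _ => rfl⟩
        inv_mem' := by
          rintro x ⟨X, h1, h2, h3⟩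
          exact ⟨X⁻¹, inv_mem h1, by simp [h2], fun l hl => by simp [h3 l hl]⟩ }
    rw [Finset.card_insert_of_notMem hj]
    have : lcs (T.card + 1) ≤ H := by
      rw [lcs, Subgroup.lowerCentralSeries_succ, Subgroup.commutator_le]
      intro x hx y _
      obtain ⟨X, h1, h2, h3⟩ := ih hiT x hx
      obtain ⟨Y, k1, k2, k3⟩ := S.g0_two (fun h => hij (ha h)) y
      refine ⟨X * Y * X⁻¹ * Y⁻¹, mul_mem (mul_mem (mul_mem h1 k1) (inv_mem h1)) (inv_mem k1),
        by simp [h2, k2, commutatorElement_def], ?_⟩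
      intro l hl
      rcases Finset.mem_insert.1 hl with rfl | hl
      · simp [k3]
      · simp [h3 l hl]
    exact fun x hx => this hx

lemma g0_lcs [Fintype K] [DecidableEq K] (ha : Function.Injective a) (β : K → FreeGroup ℝ)
    (hβ : ∀ i, β i ∈ lcs (Fintype.card K)) : (fun i => S.phi (β i)) ∈ S.G0 := by
  refine Subgroup.pi_mem_of_mulSingle_mem _ fun i => ?_
  obtain ⟨X, h1, h2, h3⟩ := S.g0_rows ha i (Finset.univ.erase i) (by simp) (β i)
    (Subgroup.lowerCentralSeries_antitone _ (Finset.card_le_univ _) (hβ i))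
  convert h1 using 1
  funext l
  by_cases hl : l = i
  · subst hl; simp [h2]
  · rw [h3 l (by simpa using hl), Pi.mulSingle_eq_of_ne hl]

def Zs (J : Finset K) : Prop :=
  ∀ s : ℚ, 0 < s → ∀ v ∈ S.G0, ∃ g ∈ S.G0, S.Et g s ∧ ∀ i ∈ J, g i = v i

def Rr (i : K) (J : Finset K) (x : K → G) (p q : ℚ) : Prop :=
  ∃ u b, S.Et u p ∧ S.Et b q ∧ (∀ l ∈ J, b l = 1) ∧ (∀ l ∈ J, x l = u l) ∧ x i = u i * (b i)⁻¹

lemma Rr.mul {S : Sys a G} {i : K} {J : Finset K} {x x' : K → G} {p q p' q' : ℚ}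
    (h : S.Rr i J x p q) (h' : S.Rr i J x' p' q') : S.Rr i J (x * x') (p + p') (q + q') := by
  obtain ⟨u, b, h1, h2, h3, h4, h5⟩ := h
  obtain ⟨u', b', k1, k2, k3, k4, k5⟩ := h'
  refine ⟨u * u', b' * fun l => (u' i)⁻¹ * b l * u' i, h1.mul k1,
    (k2.mul (h2.conj (u' i))).congr rfl (add_comm _ _), ?_, ?_, ?_⟩
  · intro l hl; simp [h3 l hl, k3 l hl]
  · intro l hl; simp [h4 l hl, k4 l hl]
  · simp only [Pi.mul_apply, h5, k5]; group

lemma Rr.congr {S : Sys a G} {i : K} {J : Finset K} {x x' : K → G} {p q p' q' : ℚ}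
    (h : S.Rr i J x p q) (hx : x = x') (hp : p = p') (hq : q = q') : S.Rr i J x' p' q' :=
  hx ▸ hp ▸ hq ▸ h

lemma rr_diag (i : K) (J : Finset K) (g : G) : S.Rr i J (fun _ => g) 0 0 :=
  ⟨fun _ => g, 1, S.et_diag g, S.et_one, fun _ _ => rfl, fun _ _ => rfl, by simp⟩

lemma pairA [DecidableEq K] (ha : Function.Injective a) {i j : K} {J : Finset K} (hi : i ∉ J)
    (hj : j ∈ J) (IH : ∀ J' ⊂ insert i J, S.Zs J') (x : FreeGroup ℝ) (ε : ℚ) (hε : 0 < ε) :
    ∃ A, ∃ p p' : ℚ, 0 ≤ p ∧ p ≤ ε ∧ 0 ≤ p' ∧ p' ≤ ε ∧ A i = S.phi x ∧ A j = 1 ∧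
      S.Rr i J A p 0 ∧ S.Rr i J A⁻¹ p' (p + p') := by
  have hij : i ≠ j := fun h => hi (h ▸ hj)
  have key : ∃ A A', ∃ p p' : ℚ, 0 ≤ p ∧ p ≤ ε ∧ 0 ≤ p' ∧ p' ≤ ε ∧ A i = S.phi x ∧ A j = 1 ∧
      S.Et A p ∧ S.Et A' p' ∧ ∀ l ∈ J, A' l = (A l)⁻¹ := by
    by_cases h : ∃ j' ∈ J, j' ≠ j
    · obtain ⟨j', hj', hne⟩ := h
      have hij' : i ≠ j' := fun h => hi (h ▸ hj')
      obtain ⟨X, h1, h2, h3⟩ := S.g0_two (fun h => hij (ha h)) x
      obtain ⟨A, k1, k2, k3⟩ := IH ((insert i J).erase j')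
        (Finset.erase_ssubset (Finset.mem_insert_of_mem hj')) ε hε X h1
      obtain ⟨A', l1, l2, l3⟩ := IH J (Finset.ssubset_insert hi) ε hε A⁻¹ (inv_mem k1)
      refine ⟨A, A', ε, ε, hε.le, le_rfl, hε.le, le_rfl, ?_, ?_, k2, l2, fun l hl => l3 l hl⟩
      · rw [k3 i (by simp [hij']), h2]
      · rw [k3 j (by simp [hne.symm, hj]), h3]
    · push Not at h
      obtain ⟨A, k1, k2, k3⟩ := S.ch_phi (fun h => hij (ha h)) x ε hε
      refine ⟨A, 1, ε, 0, hε.le, le_rfl, le_rfl, hε.le, k2, k3, k1, S.et_one, fun l hl => ?_⟩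
      rw [h l hl, k3]; simp
  obtain ⟨A, A', p, p', h1, h2, h3, h4, h5, h6, h7, h8, h9⟩ := key
  refine ⟨A, p, p', h1, h2, h3, h4, h5, h6,
    ⟨A, 1, h7, S.et_one, fun _ _ => rfl, fun _ _ => rfl, by simp⟩,
    ⟨A', A * A', h8, h7.mul h8, fun l hl => by simp [h9 l hl], fun l hl => by simp [h9 l hl], ?_⟩⟩
  simp only [Pi.inv_apply, Pi.mul_apply]; group

def Nn (i : K) (J T : Finset K) : Subgroup (FreeGroup ℝ) where
  carrier := {β | ∀ ε : ℚ, 0 < ε → ∃ A, ∃ p p' : ℚ, 0 ≤ p ∧ p ≤ ε ∧ 0 ≤ p' ∧ p' ≤ ε ∧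
    A i = S.phi β ∧ (∀ l ∈ T, A l = 1) ∧ S.Rr i J A p p ∧ S.Rr i J A⁻¹ p' p'}
  mul_mem' := by
    intro x y hx hy ε hε
    obtain ⟨A, p, p', h1, h2, h3, h4, h5, h6, h7, h8⟩ := hx (ε / 2) (by linarith)
    obtain ⟨B, q, q', k1, k2, k3, k4, k5, k6, k7, k8⟩ := hy (ε / 2) (by linarith)
    exact ⟨A * B, p + q, q' + p', by linarith, by linarith, by linarith, by linarith,
      by simp [h5, k5], fun l hl => by simp [h6 l hl, k6 l hl], h7.mul k7,
      (k8.mul h8).congr (mul_inv_rev A B).symm rfl rfl⟩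
  one_mem' := fun ε hε => ⟨1, 0, 0, le_rfl, hε.le, le_rfl, hε.le, by simp, fun _ _ => rfl,
    S.rr_diag i J 1, (S.rr_diag i J 1).congr inv_one.symm rfl rfl⟩
  inv_mem' := by
    intro x hx ε hε
    obtain ⟨A, p, p', h1, h2, h3, h4, h5, h6, h7, h8⟩ := hx ε hε
    exact ⟨A⁻¹, p', p, h3, h4, h1, h2, by simp [h5], fun l hl => by simp [h6 l hl], h8,
      h7.congr (inv_inv A).symm rfl rfl⟩

lemma lcs_le_Nn [DecidableEq K] (ha : Function.Injective a) {i : K} {J : Finset K} (hi : i ∉ J)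
    (IH : ∀ J' ⊂ insert i J, S.Zs J') (T : Finset K) (hT : T ⊆ J) :
    lcs T.card ≤ S.Nn i J T := by
  induction T using Finset.induction_on with
  | empty =>
    intro x _ ε hε
    exact ⟨fun _ => S.phi x, 0, 0, le_rfl, hε.le, le_rfl, hε.le, rfl, by simp,
      S.rr_diag i J _, S.rr_diag i J _⟩
  | insert j T hj ih =>
    rw [Finset.card_insert_of_notMem hj, lcs, Subgroup.lowerCentralSeries_succ,
      Subgroup.commutator_le]
    intro x hx y _ ε hε
    obtain ⟨A, p, p', h1, h2, h3, h4, h5, h6, h7, h8⟩ :=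
      ih ((Finset.subset_insert _ _).trans hT) hx (ε / 4) (by linarith)
    obtain ⟨B, q, q', k1, k2, k3, k4, k5, k6, k7, k8⟩ :=
      S.pairA ha hi (hT (Finset.mem_insert_self _ _)) IH y (ε / 4) (by linarith)
    refine ⟨A * B * A⁻¹ * B⁻¹, p + q + p' + q', q + p + q' + p', by linarith, by linarith,
      by linarith, by linarith, by simp [h5, k5, commutatorElement_def], ?_,
      (((h7.mul k7).mul h8).mul k8).congr rfl rfl (by ring),
      (((k7.mul h7).mul k8).mul h8).congr (by group) rfl (by ring)⟩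
    intro l hl
    rcases Finset.mem_insert.1 hl with rfl | hl
    · simp [k6]
    · simp [h6 l hl]

lemma corr [Fintype K] [DecidableEq K] (ha : Function.Injective a) {J' : Finset K}
    (IH : ∀ J ⊂ J', S.Zs J) (β : K → FreeGroup ℝ) (hβ : ∀ i, β i ∈ lcs (Fintype.card K))
    (ε : ℚ) (hε : 0 < ε) (T : Finset K) (hT : T ⊆ J') :
    ∃ Bp Bm, ∃ x : ℚ, 0 ≤ x ∧ x ≤ T.card * ε ∧ S.Et Bp x ∧ S.Et Bm x ∧
      ∀ l ∈ J', Bp l * (Bm l)⁻¹ = if l ∈ T then S.phi (β l) else 1 := by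
  induction T using Finset.induction_on with
  | empty => exact ⟨1, 1, 0, le_rfl, by simp, S.et_one, S.et_one, by simp⟩
  | insert i T hi ih =>
    obtain ⟨Bp, Bm, x, h1, h2, h3, h4, h5⟩ := ih ((Finset.subset_insert _ _).trans hT)
    have hiJ : i ∈ J' := hT (Finset.mem_insert_self _ _)
    obtain ⟨A, p, -, k1, k2, -, -, k5, k6, ⟨u, b, l1, l2, l3, l4, l5⟩, -⟩ :=
      S.lcs_le_Nn ha (i := i) (J := J'.erase i) (by simp)
        (by rwa [Finset.insert_erase hiJ]) (J'.erase i) subset_rfl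
        (Subgroup.lowerCentralSeries_antitone _ (Finset.card_le_univ _) (hβ i)) ε hε
    refine ⟨u * Bp, b * Bm, p + x, by linarith, ?_, l1.mul h3, l2.mul h4, ?_⟩
    · rw [Finset.card_insert_of_notMem hi]; push_cast; linarith
    · intro l hl
      have : (u * Bp) l * ((b * Bm) l)⁻¹ = u l * (Bp l * (Bm l)⁻¹) * (b l)⁻¹ := by
        simp only [Pi.mul_apply]; group
      rw [this, h5 l hl]
      by_cases hli : l = i
      · subst hli
        simp [hi, ← l5, k5]
      · have hl' : l ∈ J'.erase i := by simp [hli, hl]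
        rw [l3 l hl', ← l4 l hl', k6 l hl']
        simp [hli]

lemma cone_ex {Q} (hQ : Q ∈ Cone a) : ∃ w, S.Ex w Q := by
  induction hQ using AddSubmonoid.closure_induction with
  | mem Q hQ =>
    obtain ⟨m, rfl⟩ := hQ
    exact ⟨_, S.gen m⟩
  | zero => exact ⟨1, S.ex_one⟩
  | add Q Q' _ _ ih ih' =>
    obtain ⟨w, h1⟩ := ih
    obtain ⟨w', h1'⟩ := ih'
    exact ⟨w * w', h1.mul h1'⟩

end Sys

lemma rowF_smul (x : Fin d → ℝ) (c : ℝ) (W : List (V d)) :
    rowF x (W.map fun f => c • f) = FreeGroup.map (fun s => c * s) (rowF x W) := by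
  induction W with
  | nil => simp
  | cons f W ih => simp [ih]

lemma EL_smul (a : K → Fin d → ℝ) (c : ℝ) (W : List (V d)) :
    EL a (W.map fun f => c • f) = c ^ 2 • EL a W := by
  induction W with
  | nil => simp
  | cons f W ih => simp [ih, En_smul]

lemma tauL_smul (c : ℝ) (W : List (V d)) :
    tauL (W.map fun f => c • f) = c ^ 2 * tauL W := by
  induction W with
  | nil => simp
  | cons f W ih => simp [ih, tau_smul, mul_add]

lemma map_mem_lcs (f : FreeGroup ℝ →* FreeGroup ℝ) {n : ℕ} {x : FreeGroup ℝ} (hx : x ∈ lcs n) :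
    f x ∈ lcs n := by
  have h1 : f x ∈ (lcs n).map f := Subgroup.mem_map_of_mem f hx
  rw [Subgroup.map_lowerCentralSeries] at h1
  exact Subgroup.lowerCentralSeries_mono n le_top h1

lemma PairP.scaled {a : K → Fin d → ℝ} {n : ℕ} (h : PairP a n) {η κ : ℝ} (hη : 0 < η)
    (hκ : 0 < κ) : ∃ U W : List (V d), (∀ i, (rowF (a i) W)⁻¹ * rowF (a i) U ∈ lcs n) ∧
      EL a U = EL a W + η • Dm a ∧ tauL W ≤ κ := by
  obtain ⟨U, W, c, hc, h1, h2, h3⟩ := h (κ / η) (div_pos hκ hη)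
  have hs : √(η / c) ^ 2 = η / c := Real.sq_sqrt (div_pos hη hc).le
  refine ⟨U.map fun f => √(η / c) • f, W.map fun f => √(η / c) • f, fun i => ?_, ?_, ?_⟩
  · rw [rowF_smul, rowF_smul, ← map_inv, ← map_mul]
    exact map_mem_lcs _ (h1 i)
  · rw [EL_smul, EL_smul, hs, h2, smul_add, smul_smul, div_mul_cancel₀ _ hc.ne']
  · rw [tauL_smul, hs]
    calc η / c * tauL W ≤ η / c * (κ / η * c) := by gcongr
      _ = κ := by field_simp

namespace Sys

variable {a : K → Fin d → ℝ} {G : Type} [Group G] (S : Sys a G)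

lemma step [Fintype K] [DecidableEq K] (ha : Function.Injective a)
    (hP : PairP a (Fintype.card K)) {J' : Finset K} (IH : ∀ J ⊂ J', S.Zs J)
    (η κ : ℚ) (hη : 0 < η) (hκ : 0 < κ) :
    ∃ Pp Pm, S.Et Pm κ ∧ S.Et Pp (κ + η) ∧ (∀ ε, 0 < ε → S.Rl Pp 0 (κ + ε)) ∧
      ∀ l ∈ J', Pp l = Pm l := by
  obtain ⟨U, W, h1, h2, h3⟩ := hP.scaled (η := η) (κ := (κ / 2 : ℚ)) (by exact_mod_cast hη)
    (by exact_mod_cast half_pos hκ)
  set β : K → FreeGroup ℝ := fun i => (rowF (a i) W)⁻¹ * rowF (a i) U with hβ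
  obtain ⟨Bp, Bm, x, k1, k2, k3, k4, k5⟩ := S.corr ha IH β h1 (κ / (2 * (J'.card + 1)))
    (by positivity) J' subset_rfl
  have hx : x ≤ κ / 2 := by
    refine k2.trans ?_
    rw [mul_div_assoc', div_le_div_iff₀ (by positivity) (by positivity)]
    nlinarith
  obtain ⟨w, hw⟩ := S.cone_ex (coneL a W (t := ((κ - x : ℚ) : ℝ))
    (h3.trans (by exact_mod_cast (by linarith : κ / 2 ≤ κ - x))))
  have hU : (fun i => S.phi (rowF (a i) U)) =
      (fun i => S.phi (rowF (a i) W)) * fun i => S.phi (β i) := by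
    funext i; simp [hβ]
  refine ⟨(fun i => S.phi (rowF (a i) U)) * Bm * w, (fun i => S.phi (rowF (a i) W)) * Bp * w,
    (((S.ex_rows W).mul k3).mul hw).congr rfl ?_,
    (((S.ex_rows U).mul k4).mul hw).congr rfl ?_, ?_, ?_⟩
  · push_cast; rw [sub_smul]; abel
  · rw [h2]; push_cast; rw [sub_smul, add_smul]; abel
  · intro ε hε
    apply S.shift hκ.le
    have := S.mul (S.mul (S.mul (S.ex_rows W) (S.g0_lcs ha β h1 ε hε)) k4) hw
    rw [hU]
    convert this using 1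
    · push_cast; rw [sub_smul]; abel
    · simp
  · intro l hl
    have := k5 l hl
    rw [if_pos hl, mul_inv_eq_iff_eq_mul] at this
    rw [hU]
    simp only [Pi.mul_apply, this, mul_assoc]

lemma arith (S0 : ℕ) (q : ℚ) (hq : 0 < q) (hqS : q ≤ S0) : ∀ᶠ n : ℕ in atTop,
    ∃ j k : ℕ, j + k = S0 * (n + 1).factorial ∧
      (j : ℚ) = q * (n + 1).factorial - S0 * n.factorial := by
  obtain ⟨N, hN⟩ := exists_nat_ge ((S0 : ℚ) / q)
  filter_upwards [eventually_ge_atTop q.den, eventually_ge_atTop N] with n h1 h2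
  obtain ⟨m, hm⟩ : q.den ∣ (n + 1).factorial := Nat.dvd_factorial q.den_pos (by omega)
  have hnum : 0 ≤ q.num := Rat.num_nonneg.2 hq.le
  have hM : ((q.num.toNat * m : ℕ) : ℚ) = q * (n + 1).factorial := by
    rw [hm]
    push_cast
    have : ((q.num.toNat : ℕ) : ℚ) = q.num := by
      rw [← Int.cast_natCast, Int.toNat_of_nonneg hnum]
    rw [this, ← mul_assoc, Rat.mul_den_eq_num]
  have hf : (0 : ℚ) < n.factorial := by exact_mod_cast n.factorial_pos
  have hle : S0 * n.factorial ≤ q.num.toNat * m := by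
    have : ((S0 * n.factorial : ℕ) : ℚ) ≤ ((q.num.toNat * m : ℕ) : ℚ) := by
      rw [hM, Nat.factorial_succ]
      push_cast
      rw [div_le_iff₀ hq] at hN
      have h2' : (N : ℚ) ≤ n := by exact_mod_cast h2
      have : (S0 : ℚ) ≤ q * (n + 1) := by nlinarith
      nlinarith
    exact_mod_cast this
  have hle2 : q.num.toNat * m ≤ S0 * (n + 1).factorial := by
    have : ((q.num.toNat * m : ℕ) : ℚ) ≤ ((S0 * (n + 1).factorial : ℕ) : ℚ) := by
      rw [hM]
      push_cast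
      gcongr
    exact_mod_cast this
  refine ⟨q.num.toNat * m - S0 * n.factorial,
    S0 * (n + 1).factorial - (q.num.toNat * m - S0 * n.factorial), by omega, ?_⟩
  rw [Nat.cast_sub hle, hM]
  push_cast
  ring

lemma zs_all [Fintype K] [DecidableEq K] (ha : Function.Injective a)
    (hP : PairP a (Fintype.card K)) (J' : Finset K) : S.Zs J' := by
  induction J' using Finset.strongInduction with
  | H J' IH =>
  intro s hs v hv
  obtain ⟨S0, hS0⟩ := exists_nat_ge s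
  have hf : ∀ n : ℕ, (0 : ℚ) < n.factorial := fun n => by exact_mod_cast n.factorial_pos
  choose Pp Pm h1 h2 h3 h4 using fun n : ℕ => S.step ha hP IH (1 / (n + 1).factorial)
    (1 / ((n + 1).factorial * (n + 1))) (by have := hf (n + 1); positivity)
    (by have := hf (n + 1); positivity)
  have hsm : ∀ ε : ℚ, 0 < ε → ∀ᶠ n : ℕ in atTop, (S0 : ℚ) / (n + 1) ≤ ε := by
    intro ε hε
    obtain ⟨N, hN⟩ := exists_nat_ge ((S0 : ℚ) / ε)
    filter_upwards [eventually_ge_atTop N] with n hn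
    rw [div_le_iff₀ hε] at hN
    rw [div_le_iff₀ (by positivity)]
    have h2' : (N : ℚ) ≤ n := by exact_mod_cast hn
    nlinarith
  have hJ : ∀ n : ℕ, ((S0 * (n + 1).factorial : ℕ) : ℚ) * (1 / ((n + 1).factorial * (n + 1))) =
      S0 / (n + 1) := by
    intro n
    have := hf (n + 1)
    push_cast
    field_simp
  obtain ⟨g, k1, k2, k3⟩ := S.lim2 J' s (s / 2) (fun n => Pm n ^ (S0 * (n + 1).factorial))
    (half_pos hs) (by
      intro ε hε
      filter_upwards [hsm ε hε] with n hn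
      have := ((h1 n).pow (S0 * (n + 1).factorial)).small (by have := hf (n + 1); positivity)
      rw [hJ] at this
      exact S.mono hn this) (by
      intro δ hδ hδs ε hε
      filter_upwards [hsm (ε / 2) (half_pos hε), arith S0 (s - δ) (by linarith) (by linarith)]
        with n hn ⟨j, k, hjk, hj⟩
      have hjk' : (j : ℚ) + k = ((S0 * (n + 1).factorial : ℕ) : ℚ) := by exact_mod_cast hjk
      refine ⟨Pp n ^ j * Pm n ^ k, (((h2 n).pow j).mul ((h1 n).pow k)).congr rfl ?_, ?_, ?_⟩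
      · have e1 : (j : ℚ) * (1 / ((n + 1).factorial * (n + 1)) + 1 / (n + 1).factorial) +
            k * (1 / ((n + 1).factorial * (n + 1))) =
            ((j : ℚ) + k) * (1 / ((n + 1).factorial * (n + 1))) + j / (n + 1).factorial := by ring
        rw [e1, hjk', hJ, hj, Nat.factorial_succ]
        have := hf n
        push_cast
        field_simp
        ring
      · have e0 : (0 : ℚ) < ε / (2 * (j + 1)) := by positivity
        have := S.rl_mul0 (S.rl_pow0 (h3 n _ e0) j)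
          (((h1 n).pow k).small (by have := hf (n + 1); positivity))
        refine S.mono ?_ this
        have e1 : (j : ℚ) * (1 / ((n + 1).factorial * (n + 1)) + ε / (2 * (j + 1))) +
            k * (1 / ((n + 1).factorial * (n + 1))) =
            ((j : ℚ) + k) * (1 / ((n + 1).factorial * (n + 1))) + j * (ε / (2 * (j + 1))) := by
          ring
        rw [e1, hjk', hJ]
        have e2 : (j : ℚ) * (ε / (2 * (j + 1))) ≤ ε / 2 := by
          rw [mul_div_assoc', div_le_div_iff₀ (by positivity) (by positivity)]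
          nlinarith
        linarith
      · intro l hl
        simp only [Pi.mul_apply, Pi.pow_apply, h4 n l hl, ← pow_add, hjk]) v hv
  exact ⟨g, k1, k2, k3⟩

theorem final [Fintype K] [DecidableEq K] (ha : Function.Injective a)
    (hP : PairP a (Fintype.card K)) : S.Rl 1 (Dm a) 0 := by
  obtain ⟨g, -, h2, h3⟩ := S.zs_all ha hP Finset.univ 1 one_pos 1 (one_mem _)
  have : g = 1 := funext fun i => h3 i (Finset.mem_univ i)
  subst this
  have h4 : S.Rl 1 (((1 : ℚ) : ℝ) • Dm a) 0 := h2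
  simpa using h4

end Sys

end Vale.Agent.P058
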